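import Crest.Agent.X262.G3Num.Lorentz
import Crest.Agent.X277.BD.Num2
import Crest.Agent.X262.Surf.K3n
import Crest.Agent.X262.Int23.Hl
import Crest.Agent.X277.BD.Num
import Crest.Agent.X262.Surf.Bas
import Mathlib
import Crest.Agent.X262.Surf.Defs
import Crest.Agent.X277.Res.LogD
import Crest.Agent.X277.Neg.Loc
import Crest.Agent.X262.Gal71.Desc
import Crest.Agent.X262.Geo.Dv
import Crest.Agent.X262.Hor83.Main
import Crest.Agent.X262.Rho82.Nef

-- ▼ part X262/G3Num/Num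
section

/-!
# NUM: the numerical core of G3 along note 1870 (one ordering, no projection)
-/

set_option autoImplicit false

namespace Crest.Agent.X262.G3Num

open Finset

variable {V : Type*} [AddCommGroup V] [Module ℝ V] {B : LinearMap.BilinForm ℝ V} {H : V}

/-- One term of the Riemann–Roch sum, tested against a vector `m` which is `nf`-orthogonal to `K`.
`a = H.ξ`, `r = -H.K`. -/
theorem HodgeIdx.term_le (h : HodgeIdx B H) (ξ K m : V) (a r lam γ : ℝ) (ha : B H ξ = a)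
    (hr : B H K = -r) (ha0 : 0 ≤ a) (hr0 : 0 ≤ r) (hlam : 0 < lam) (hγ0 : 0 ≤ γ) (hγ : γ ≤ 1 / 2)
    (hKm : nf B H K m = 0) (hmm : nf B H m m ≤ (1 - γ) * (lam ^ 2 * B H H))
    (hξm : lam * (a - r) ≤ nf B H ξ m) :
    B ξ ξ + B K ξ ≤ (-γ * a ^ 2 + 2 * a * r) / B H H + nf B H K K / 4 := by
  have hH := h.pos
  set y : V := ξ + (1 / 2 : ℝ) • K with hy
  have h1 : B ξ ξ + B K ξ = (a ^ 2 - r * a) / B H H - nf B H y y + nf B H K K / 4 := by
    rw [hy, nf_add_left, nf_add_right, nf_add_right, nf_smul_left, nf_smul_right, nf_smul_left,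
      nf_smul_right, h.nf_symm ξ K]
    simp only [nf, ha, hr]
    field_simp
    ring
  have h2 : nf B H y m = nf B H ξ m := by
    rw [hy, nf_add_left, nf_smul_left, hKm]; ring
  have hy0 := h.nf_nonneg y
  have key : (a ^ 2 - r * a) / B H H - nf B H y y ≤ (-γ * a ^ 2 + 2 * a * r) / B H H := by
    rcases le_total a r with har | har
    · have h3 : a ^ 2 - r * a ≤ -γ * a ^ 2 + 2 * a * r := by nlinarith [mul_nonneg ha0 hr0]
      have := div_le_div_of_nonneg_right h3 hH.le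
      linarith
    · have h3 : (lam * (a - r)) ^ 2 ≤ nf B H y y * ((1 - γ) * (lam ^ 2 * B H H)) :=
        ((pow_le_pow_left₀ (mul_nonneg hlam.le (by linarith)) (h2 ▸ hξm) 2).trans
          (h.nf_cs y m)).trans (mul_le_mul_of_nonneg_left hmm hy0)
      have h4 : (a - r) ^ 2 ≤ (1 - γ) * (nf B H y y * B H H) := by
        have : lam ^ 2 * (a - r) ^ 2 ≤ lam ^ 2 * ((1 - γ) * (nf B H y y * B H H)) := by
          nlinarith
        exact le_of_mul_le_mul_left this (by positivity)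
      have h5 : (1 + γ) * (a - r) ^ 2 ≤ nf B H y y * B H H := by
        have h6 : 0 ≤ nf B H y y * B H H := by positivity
        nlinarith [mul_le_mul_of_nonneg_left h4 (show 0 ≤ 1 + γ by linarith),
          mul_nonneg (sq_nonneg γ) h6]
      rw [sub_le_iff_le_add, div_add' _ _ _ hH.ne']
      refine div_le_div_of_nonneg_right ?_ hH.le
      nlinarith [mul_nonneg ha0 hr0, mul_nonneg hγ0 (sq_nonneg r),
        mul_nonneg (show 0 ≤ 1 / 2 - γ by linarith) (mul_nonneg ha0 hr0)]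
  linarith

theorem quad_le {a b c : ℝ} (h : a ^ 2 ≤ 2 * b * a + c) : a ^ 2 ≤ 4 * b ^ 2 + 2 * c := by
  nlinarith [sq_nonneg (a - 2 * b)]

theorem fin_num (k t ρ κ w c₀ z : ℝ) (hk2 : 2 ≤ k) (ht : 0 < t) (hc₀ : 0 ≤ c₀) (hw : 0 ≤ w)
    (h1 : 1 / (2 * (k - 1) ^ 2) * z ^ 2 ≤ 2 * k ^ 2 * ρ * z + (c₀ * t + k * w * t / 4))
    (h4 : κ ≤ k ^ 2 * z) (hκ : 0 ≤ κ) :
    κ ^ 2 ≤ 64 * k ^ 12 * (c₀ * t + w * t + ρ ^ 2) := by
  have hk0 : 0 < k := by linarith
  have hk1 : 0 < k - 1 := by linarith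
  have h2 : z ^ 2 ≤ 2 * (2 * k ^ 4 * ρ) * z + 2 * k ^ 2 * (c₀ * t + k * w * t / 4) := by
    have h3 : 1 ≤ 2 * k ^ 2 * (1 / (2 * (k - 1) ^ 2)) := by
      rw [mul_one_div, le_div_iff₀ (by positivity)]; nlinarith
    have h4 : 2 * k ^ 2 * (1 / (2 * (k - 1) ^ 2) * z ^ 2)
        ≤ 2 * k ^ 2 * (2 * k ^ 2 * ρ * z + (c₀ * t + k * w * t / 4)) :=
      mul_le_mul_of_nonneg_left h1 (by positivity)
    nlinarith [mul_le_mul_of_nonneg_right h3 (sq_nonneg z)]
  have h3 := quad_le h2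
  have h5 : κ ^ 2 ≤ k ^ 4 * z ^ 2 := by
    have := pow_le_pow_left₀ hκ h4 2
    rwa [mul_pow, ← pow_mul] at this
  have h6 : k ^ 4 * z ^ 2 ≤ k ^ 4 * (4 * (2 * k ^ 4 * ρ) ^ 2
      + 2 * (2 * k ^ 2 * (c₀ * t + k * w * t / 4))) := mul_le_mul_of_nonneg_left h3 (by positivity)
  have hk1' : 1 ≤ k := by linarith
  have e1 : k ^ 6 ≤ k ^ 12 := pow_le_pow_right₀ hk1' (by norm_num)
  have e2 : k ^ 7 ≤ k ^ 12 := pow_le_pow_right₀ hk1' (by norm_num)
  have p1 : 0 ≤ c₀ * t := by positivity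
  have p2 : 0 ≤ w * t := by positivity
  have p3 : 0 ≤ k ^ 12 * ρ ^ 2 := by positivity
  have p4 : 0 ≤ k ^ 12 := by positivity
  have q1 := mul_le_mul_of_nonneg_right e1 p1
  have q2 := mul_le_mul_of_nonneg_right e2 p2
  have q3 := mul_nonneg p4 p1
  have q4 := mul_nonneg p4 p2
  have e : k ^ 4 * (4 * (2 * k ^ 4 * ρ) ^ 2 + 2 * (2 * k ^ 2 * (c₀ * t + k * w * t / 4)))
      = 16 * (k ^ 12 * ρ ^ 2) + 4 * (k ^ 6 * (c₀ * t)) + k ^ 7 * (w * t) := by ring
  have e' : 64 * k ^ 12 * (c₀ * t + w * t + ρ ^ 2)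
      = 64 * (k ^ 12 * (c₀ * t)) + 64 * (k ^ 12 * (w * t)) + 64 * (k ^ 12 * ρ ^ 2) := by ring
  linarith

/-- **NUM.**  `L a` the pull-backs of the polarisation (`∑ L a = d H`), `K` the pull-back of the
canonical class of the base, `ξ j` the graded pieces, `ξ j₀ = x_{i₀ j₀}`. -/
theorem HodgeIdx.num (h : HodgeIdx B H) {ι : Type*} [Fintype ι] (L : ι → V)
    (k d t N ρ κ w c₀ : ℝ) (hk : k = Fintype.card ι) (hk2 : 2 ≤ k) (hN : 0 < N) (ht : 0 < t)
    (hd : 0 < d) (hsum : ∑ a, L a = d • H) (hLL : ∀ a, B (L a) (L a) = N * d)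
    (hHL : ∀ a, B H (L a) = N * t * d) (hHH : B H H = k * N * t) (i₀ j₀ : ι)
    (Γ : SimpleGraph ι) (hΓ : Γ.Preconnected)
    (hadj : ∀ a b, Γ.Adj a b → B (L a) (L b) ≤ B (L i₀) (L j₀)) (ξ : ι → V) (K : V)
    (hρ : 0 ≤ ρ) (hκ : 0 ≤ κ) (hc₀ : 0 ≤ c₀)
    (hKL : ∀ a, B K (L a) = -(N * ρ * d)) (hKK : k * N * (ρ ^ 2 / t - w) ≤ B K K)
    (hξL : ∀ j, B (L j) (ξ j) ≤ N * ρ * d) (hξL₀ : B (L i₀) (ξ j₀) ≤ N * ρ * d)
    (hH0 : ∀ j, 0 ≤ B H (ξ j)) (hH1 : ∀ j, B H (ξ j) ≤ (k - 1) * B H (ξ j₀))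
    (hH2 : N * κ ≤ (k - 1) * B H (ξ j₀))
    (hRR : -(c₀ * (k * N)) ≤ ∑ j, (B (ξ j) (ξ j) + B K (ξ j))) :
    κ ^ 2 ≤ 64 * k ^ 12 * (c₀ * t + w * t + ρ ^ 2) := by
  classical
  have hk0 : 0 < k := by linarith
  have hk1 : 1 ≤ k - 1 := by linarith
  have : Nonempty ι := ⟨i₀⟩
  have hHK : B H K = -(k * N * ρ) := by
    have h1 : B (∑ a, L a) K = d * B H K := by rw [hsum, map_smul]; simp
    have h2 : B (∑ a, L a) K = k * -(N * ρ * d) := by
      rw [map_sum, LinearMap.sum_apply]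
      simp only [h.symm (L _) K, hKL]
      rw [Finset.sum_const, Finset.card_univ, nsmul_eq_mul, ← hk]
    have h3 : d * B H K = d * -(k * N * ρ) := by rw [← h1, h2]; ring
    exact mul_left_cancel₀ hd.ne' h3
  have hKn : ∀ a, nf B H K (L a) = 0 := by
    intro a
    simp only [nf, hHK, hHL, hHH, hKL]
    field_simp; ring
  have hKw : nf B H K K ≤ k * N * w := by
    have : B H K * B H K / B H H = k * N * (ρ ^ 2 / t) := by
      rw [hHK, hHH]; field_simp
    simp only [nf, this]; linarith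
  have hw : 0 ≤ w := by
    have := (h.nf_nonneg K).trans hKw
    exact (mul_nonneg_iff_of_pos_left (by positivity)).mp this
  set P : ℝ := (d / k) ^ 2 * B H H with hP
  have hE : ∀ a, nf B H (L a) (L a) = P - N * d := by
    intro a
    simp only [nf, hHL, hLL, hHH, hP]
    field_simp
  have hNd : 0 < N * d := by positivity
  have hE0 : 0 ≤ P - N * d := hE i₀ ▸ h.nf_nonneg _
  have hξn : ∀ a y, nf B H y (L a) = d / k * B H y - B (L a) y := by
    intro a y
    simp only [nf, hHL, hHH, h.symm y (L a)]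
    field_simp
  have hdk : d / k * (k * N * ρ) = N * ρ * d := by field_simp
  -- the generic term
  have hgen : ∀ j, B (ξ j) (ξ j) + B K (ξ j)
      ≤ 2 * B H (ξ j) * (k * N * ρ) / B H H + nf B H K K / 4 := by
    intro j
    have := h.term_le (ξ j) K (L j) (B H (ξ j)) (k * N * ρ) (d / k) 0 rfl hHK (hH0 j)
      (by positivity) (by positivity) le_rfl (by norm_num) (hKn j)
      (by rw [hE]; linarith) (by rw [hξn, mul_sub, hdk]; linarith [hξL j])
    simpa using this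
  -- the special term
  set γ : ℝ := 1 / (2 * (k - 1) ^ 2) with hγ
  have hγ0 : 0 < γ := by positivity
  have hγ1 : γ ≤ 1 / 2 := one_div_le_one_div_of_le (by norm_num) (by nlinarith)
  have hdiff : ∀ a b, nf B H (L a - L b) (L a - L b) = 2 * B (L a) (L b) - 2 * (N * d) := by
    intro a b
    simp only [nf, map_sub, LinearMap.sub_apply, hHL, hLL, h.symm (L b) (L a)]
    ring
  set D : ℝ := nf B H (L i₀ - L j₀) (L i₀ - L j₀) with hD
  have horb := h.nf_orbital L d hsum (P - N * d) hE Γ hΓ D (h.nf_nonneg _) (fun a b hab => by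
    rw [hD, hdiff, hdiff]; linarith [hadj a b hab])
  rw [← hk] at horb
  have hDP : 4 * γ * (P - N * d) ≤ D := by
    have : 4 * γ * (P - N * d) = 2 * (P - N * d) / (k - 1) ^ 2 := by rw [hγ]; field_simp; ring
    rw [this, div_le_iff₀ (by positivity)]; linarith
  have hspec : B (ξ j₀) (ξ j₀) + B K (ξ j₀) ≤ (-γ * B H (ξ j₀) ^ 2
      + 2 * B H (ξ j₀) * (k * N * ρ)) / B H H + nf B H K K / 4 := by
    refine h.term_le (ξ j₀) K (L i₀ + L j₀) _ _ (2 * (d / k)) γ rfl hHK (hH0 j₀) (by positivity)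
      (by positivity) hγ0.le hγ1 (by rw [nf_add_right, hKn, hKn, add_zero]) ?_ ?_
    · have h1 : nf B H (L i₀ + L j₀) (L i₀ + L j₀) = 4 * (P - N * d) - D := by
        rw [hD, nf_add_left, nf_add_right, nf_add_right, nf_sub_left, nf_sub_right, nf_sub_right,
          hE, hE]
        ring
      have h2 : (2 * (d / k)) ^ 2 * B H H = 4 * P := by rw [hP]; ring
      rw [h1, h2]
      nlinarith
    · rw [nf_add_right, hξn, hξn]
      linarith [hξL j₀]
  set a : ℝ := B H (ξ j₀) with ha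
  have ha0 : 0 ≤ a := hH0 j₀
  have hHp := h.pos
  have hsumle : ∑ j, (B (ξ j) (ξ j) + B K (ξ j))
      ≤ -γ * a ^ 2 / B H H + k * (2 * (k * a) * (k * N * ρ) / B H H + k * N * w / 4) := by
    have h1 : ∀ j, B (ξ j) (ξ j) + B K (ξ j) ≤ (if j = j₀ then -γ * a ^ 2 / B H H else 0)
        + (2 * (k * a) * (k * N * ρ) / B H H + k * N * w / 4) := by
      intro j
      have h2 : 2 * B H (ξ j) * (k * N * ρ) / B H H ≤ 2 * (k * a) * (k * N * ρ) / B H H := by
        have : B H (ξ j) ≤ k * a := by linarith [hH1 j]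
        gcongr
      split_ifs with hj
      · subst hj
        rw [add_div] at hspec
        linarith
      · linarith [hgen j]
    refine (Finset.sum_le_sum fun j _ => h1 j).trans (le_of_eq ?_)
    rw [Finset.sum_add_distrib, Finset.sum_ite_eq', Finset.sum_const, Finset.card_univ,
      nsmul_eq_mul, ← hk]
    simp
  -- clear denominators: `z = a / (k N)`
  set z : ℝ := a / (k * N) with hz
  have haz : a = k * N * z := by rw [hz]; field_simp
  have hz0 : 0 ≤ z := by positivity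
  have h1 : γ * z ^ 2 ≤ 2 * k ^ 2 * ρ * z + (c₀ * t + k * w * t / 4) := by
    have h2 := hRR.trans hsumle
    rw [haz, hHH] at h2
    have h3 : -γ * (k * N * z) ^ 2 / (k * N * t)
        + k * (2 * (k * (k * N * z)) * (k * N * ρ) / (k * N * t) + k * N * w / 4)
        = (k * N / t) * (-γ * z ^ 2 + 2 * k ^ 2 * ρ * z + k * w * t / 4) := by
      field_simp; ring
    have h4 : -(c₀ * (k * N)) = (k * N / t) * -(c₀ * t) := by field_simp
    rw [h3, h4] at h2
    have := le_of_mul_le_mul_left h2 (by positivity)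
    linarith
  refine fin_num k t ρ κ w c₀ z hk2 ht hc₀ hw h1 ?_ hκ
  have h5 : N * κ ≤ N * (k ^ 2 * z) := by
    rw [haz] at hH2
    have h6 : 0 ≤ k * N * z := by positivity
    have h7 : (k - 1) * (k * N * z) = N * (k ^ 2 * z) - k * N * z := by ring
    linarith
  exact le_of_mul_le_mul_left h5 hN

end Crest.Agent.X262.G3Num
end

-- ▼ part X262/G3Num/NumZ
section

/-!
# NUM for an integral lattice (no quotient by the radical, no projection)
-/

set_option autoImplicit false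

namespace Crest.Agent.X262.G3Num

open Finset TensorProduct

variable {A : Type*} [AddCommGroup A]

/-- the real form of an integral form -/
noncomputable abbrev bR (b : LinearMap.BilinForm ℤ A) : LinearMap.BilinForm ℝ (ℝ ⊗[ℤ] A) :=
  LinearMap.BilinForm.baseChange ℝ b

theorem bR_tmul (b : LinearMap.BilinForm ℤ A) (s t : ℝ) (x y : A) :
    bR b (s ⊗ₜ x) (t ⊗ₜ y) = s * t * b x y := by
  simp [bR, LinearMap.BilinForm.baseChange_tmul, mul_comm]

theorem bR_symm {b : LinearMap.BilinForm ℤ A} (hb : ∀ x y, b x y = b y x) (u v : ℝ ⊗[ℤ] A) :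
    bR b u v = bR b v u := by
  induction u using TensorProduct.induction_on with
  | zero => simp
  | add u u' h h' => simp only [map_add, LinearMap.add_apply, h, h']
  | tmul s x =>
    induction v using TensorProduct.induction_on with
    | zero => simp
    | add v v' h h' => simp only [map_add, LinearMap.add_apply, h, h']
    | tmul t y => rw [bR_tmul, bR_tmul, hb x y, mul_comm s t]

/-- A real bilinear form on `ℝ ⊗ A` which is nonnegative on the lattice is nonnegative. -/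
theorem nonneg_of_lattice (Q : LinearMap.BilinForm ℝ (ℝ ⊗[ℤ] A))
    (h : ∀ a : A, 0 ≤ Q (1 ⊗ₜ a) (1 ⊗ₜ a)) (x : ℝ ⊗[ℤ] A) : 0 ≤ Q x x := by
  let S : Set (ℝ ⊗[ℤ] A) := {y | ∃ m : ℕ, 0 < m ∧ ∃ a : A, (m : ℝ) • y = 1 ⊗ₜ a}
  have hz : ∀ (n : ℤ) (a : A), (n : ℝ) • ((1 : ℝ) ⊗ₜ[ℤ] a) = 1 ⊗ₜ (n • a) := by
    intro n a
    rw [TensorProduct.tmul_smul, Int.cast_smul_eq_zsmul]
  have hS0 : ∀ y ∈ S, 0 ≤ Q y y := by
    rintro y ⟨m, hm, a, ha⟩
    have h1 := h a
    rw [← ha] at h1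
    simp only [map_smul, LinearMap.smul_apply, smul_eq_mul] at h1
    have hm' : (0 : ℝ) < m := by exact_mod_cast hm
    exact (mul_nonneg_iff_of_pos_left hm').mp ((mul_nonneg_iff_of_pos_left hm').mp h1)
  have hSq : ∀ (q : ℚ) (a : A), ∀ y ∈ S, (q : ℝ) • ((1 : ℝ) ⊗ₜ[ℤ] a) + y ∈ S := by
    rintro q a y ⟨m, hm, a', ha⟩
    refine ⟨q.den * m, Nat.mul_pos q.den_pos hm, (q.num * m) • a + (q.den : ℤ) • a', ?_⟩
    have h1 : ((q.den * m : ℕ) : ℝ) * (q : ℝ) = ((q.num * m : ℤ) : ℝ) := by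
      have : (q : ℝ) = q.num / q.den := by exact_mod_cast (Rat.num_div_den q).symm
      have hd : (q.den : ℝ) ≠ 0 := by exact_mod_cast q.den_ne_zero
      rw [this]; push_cast; field_simp
    rw [smul_add, smul_smul, h1, hz, TensorProduct.tmul_add, Nat.cast_mul,
      mul_smul (q.den : ℝ) (m : ℝ) y, ha, ← hz (q.den : ℤ) a', Int.cast_natCast]
  have key : ∀ z : ℝ ⊗[ℤ] A, ∀ x, (∀ y ∈ S, 0 ≤ Q (x + y) (x + y)) →
      ∀ y ∈ S, 0 ≤ Q (x + z + y) (x + z + y) := by
    intro z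
    induction z using TensorProduct.induction_on with
    | zero => intro x hx; simpa using hx
    | add z z' ih ih' => intro x hx; simpa only [add_assoc] using ih' _ (ih x hx)
    | tmul t a =>
      intro x hx y hy
      set u : ℝ ⊗[ℤ] A := 1 ⊗ₜ a with hu
      have ht : ∀ t : ℝ, Q (x + (t • u + y)) (x + (t • u + y))
          = Q (x + y) (x + y) + t * (Q u (x + y) + Q (x + y) u) + t * t * Q u u := by
        intro t
        simp only [map_add, map_smul, LinearMap.add_apply, LinearMap.smul_apply, smul_eq_mul]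
        ring
      have h1 : t ⊗ₜ[ℤ] a = t • u := by rw [hu, TensorProduct.smul_tmul', smul_eq_mul, mul_one]
      rw [h1, add_assoc, ht]
      refine Rat.denseRange_cast.induction_on (p := fun t : ℝ => 0 ≤ Q (x + y) (x + y)
        + t * (Q u (x + y) + Q (x + y) u) + t * t * Q u u) t
        (isClosed_le continuous_const (by fun_prop)) fun q => ?_
      rw [← ht]
      exact hx _ (hSq q a y hy)
  have := key x 0 (by simpa using hS0) 0 ⟨1, one_pos, 0, by simp⟩
  simpa using this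

theorem hodgeIdx_bR {b : LinearMap.BilinForm ℤ A} (hb : ∀ x y, b x y = b y x) {Λ : A}
    (hpos : 0 < b Λ Λ) (hidx : ∀ x, b Λ Λ * b x x ≤ (b Λ x) ^ 2) {s : ℝ} (hs : s ≠ 0) :
    HodgeIdx (bR b) (s ⊗ₜ Λ) where
  symm := bR_symm hb
  pos := by
    rw [bR_tmul]
    have : (0 : ℝ) < b Λ Λ := by exact_mod_cast hpos
    exact mul_pos (mul_self_pos.mpr hs) this
  idx x := by
    let Q : LinearMap.BilinForm ℝ (ℝ ⊗[ℤ] A) :=
      (bR b (s ⊗ₜ Λ)).smulRight (bR b (s ⊗ₜ Λ)) - bR b (s ⊗ₜ Λ) (s ⊗ₜ Λ) • bR b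
    have hQ : ∀ u, Q u u = (bR b (s ⊗ₜ Λ) u) ^ 2 - bR b (s ⊗ₜ Λ) (s ⊗ₜ Λ) * bR b u u := by
      intro u
      simp only [Q, LinearMap.sub_apply, LinearMap.smulRight_apply, LinearMap.smul_apply,
        smul_eq_mul]
      ring
    have := nonneg_of_lattice Q (fun a => by
      rw [hQ, bR_tmul, bR_tmul, bR_tmul]
      have h1 : (b Λ Λ : ℝ) * b a a ≤ (b Λ a : ℝ) ^ 2 := by exact_mod_cast hidx a
      nlinarith [mul_le_mul_of_nonneg_left h1 (mul_self_nonneg s)]) x
    rw [hQ] at this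
    linarith

theorem exists_ord {ι : Type*} [Fintype ι] {i j : ι} (hij : i ≠ j) :
    ∃ e : ι ≃ Fin (Fintype.card ι), ∀ a, e a < e j ↔ a = i := by
  classical
  have h2 : 1 < Fintype.card ι := Fintype.one_lt_card_iff.mpr ⟨i, j, hij⟩
  let z : Fin (Fintype.card ι) := ⟨0, by omega⟩
  let o : Fin (Fintype.card ι) := ⟨1, h2⟩
  let e0 := Fintype.equivFin ι
  let e1 := e0.trans (Equiv.swap (e0 i) z)
  let e2 := e1.trans (Equiv.swap (e1 j) o)
  have h1 : e1 i = z := by simp [e1]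
  have h3 : e1 j ≠ z := fun h => hij (e1.injective (h1.trans h.symm))
  have h4 : e2 i = z := by
    change Equiv.swap (e1 j) o (e1 i) = z
    rw [h1]
    exact Equiv.swap_apply_of_ne_of_ne h3.symm (by simp [z, o, Fin.ext_iff])
  have h5 : e2 j = o := by
    change Equiv.swap (e1 j) o (e1 j) = o
    exact Equiv.swap_apply_left _ _
  refine ⟨e2, fun a => ?_⟩
  rw [h5]
  constructor
  · intro h
    refine e2.injective (h4 ▸ Fin.ext ?_)
    have : (e2 a : ℕ) < 1 := h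
    simp only [z]; omega
  · rintro rfl
    rw [h4]; exact Nat.zero_lt_one

/-- **NUM on a lattice.**  `X i j c = L_c . x_{ij}`; for every ordering of the sheets the graded
pieces `ξ j` have `L_c . ξ_j = ∑_{i < j} X i j c` and satisfy the Riemann–Roch inequality. -/
theorem num_lattice (b : LinearMap.BilinForm ℤ A) (hb : ∀ x y, b x y = b y x)
    {G ι : Type*} [Group G] [MulAction G ι] [MulAction.IsPreprimitive G ι] [Fintype ι]
    [DecidableEq ι] (L : ι → A)
    (hidx : ∀ x, b (∑ a, L a) (∑ a, L a) * b x x ≤ (b (∑ a, L a) x) ^ 2)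
    (hG : ∀ (g : G) (a c : ι), b (L (g • a)) (L (g • c)) = b (L a) (L c))
    (k d t N ρ κ w c₀ : ℝ) (hk : k = Fintype.card ι) (hk2 : 2 ≤ k) (hN : 0 < N) (ht : 0 < t)
    (hd : 0 < d) (hLL : ∀ a, (b (L a) (L a) : ℝ) = N * d)
    (hHL : ∀ c, (b (∑ a, L a) (L c) : ℝ) = N * t * d ^ 2) (K : A)
    (hρ : 0 ≤ ρ) (hκ : 0 ≤ κ) (hc₀ : 0 ≤ c₀)
    (hKL : ∀ a, (b K (L a) : ℝ) = -(N * ρ * d)) (hKK : k * N * (ρ ^ 2 / t - w) ≤ b K K)
    (X : ι → ι → ι → ℝ) (hX0 : ∀ i j c, i ≠ j → 0 ≤ X i j c) (hXs : ∀ i j c, X i j c = X j i c)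
    (hXr : ∀ i, ∑ j ∈ univ.erase i, X i j i ≤ N * ρ * d) (i₁ : ι)
    (hXκ : N * κ * d ≤ ∑ j ∈ univ.erase i₁, ∑ c, X i₁ j c)
    (hord : ∀ e : ι ≃ Fin (Fintype.card ι), ∃ ξ : ι → A,
      (∀ j c, (b (L c) (ξ j) : ℝ) = ∑ i ∈ univ.filter (fun i => e i < e j), X i j c) ∧
      -(c₀ * (k * N)) ≤ ∑ j, ((b (ξ j) (ξ j) : ℝ) + b K (ξ j))) :
    κ ^ 2 ≤ 64 * k ^ 12 * (c₀ * t + w * t + ρ ^ 2) := by
  have hk0 : 0 < k := by linarith
  have hcard : ∀ i : ι, ((univ.erase i).card : ℝ) = k - 1 := by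
    intro i
    rw [Finset.card_erase_of_mem (Finset.mem_univ i), Finset.card_univ, hk,
      Nat.cast_sub (Nat.succ_le_of_lt (Fintype.card_pos_iff.mpr ⟨i⟩))]
    simp
  have hne : (univ.offDiag : Finset (ι × ι)).Nonempty := by
    have h1 : 1 < Fintype.card ι := by
      have : (1 : ℝ) < Fintype.card ι := by linarith
      exact_mod_cast this
    obtain ⟨i, j, hij⟩ := Fintype.one_lt_card_iff.mp h1
    exact ⟨(i, j), by simpa using hij⟩
  obtain ⟨⟨i₀, j₀⟩, hp, hmax⟩ := Finset.exists_max_image _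
    (fun p : ι × ι => ∑ c, X p.1 p.2 c) hne
  have hij : i₀ ≠ j₀ := by simpa using hp
  have hmax' : ∀ i j, i ≠ j → ∑ c, X i j c ≤ ∑ c, X i₀ j₀ c := fun i j h =>
    hmax (i, j) (by simpa using h)
  obtain ⟨e, he⟩ := exists_ord hij
  obtain ⟨ξ, hξ, hRR⟩ := hord e
  have hΛΛ : (b (∑ a, L a) (∑ a, L a) : ℝ) = k * (N * t * d ^ 2) := by
    conv_lhs => rw [map_sum]
    push_cast
    simp only [hHL]
    rw [Finset.sum_const, Finset.card_univ, nsmul_eq_mul, ← hk]
  have hpos : 0 < b (∑ a, L a) (∑ a, L a) := by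
    have : (0 : ℝ) < b (∑ a, L a) (∑ a, L a) := by rw [hΛΛ]; positivity
    exact_mod_cast this
  have hH := hodgeIdx_bR hb hpos hidx (inv_ne_zero hd.ne')
  have hsub : ∀ j, univ.filter (fun i => e i < e j) ⊆ univ.erase j := by
    intro j i hi
    rw [Finset.mem_filter] at hi
    exact Finset.mem_erase.mpr ⟨fun h => lt_irrefl _ (h ▸ hi.2), Finset.mem_univ _⟩
  have hrow : ∀ j c, (b (L c) (ξ j) : ℝ) ≤ ∑ i ∈ univ.erase j, X j i c := by
    intro j c
    rw [hξ]
    simp only [hXs j]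
    exact Finset.sum_le_sum_of_subset_of_nonneg (hsub j) fun i hi _ =>
      hX0 i j c (Finset.ne_of_mem_erase hi)
  have hξ₀ : ∀ c, (b (L c) (ξ j₀) : ℝ) = X i₀ j₀ c := by
    intro c
    rw [hξ]
    have : univ.filter (fun i => e i < e j₀) = {i₀} := by
      ext a; simp [he]
    rw [this, Finset.sum_singleton]
  have hΛξ : ∀ j, (b (∑ a, L a) (ξ j) : ℝ) = ∑ c, (b (L c) (ξ j) : ℝ) := by
    intro j
    rw [map_sum, LinearMap.sum_apply]; push_cast; rfl
  have hrowmax : ∀ i, ∑ j ∈ univ.erase i, ∑ c, X i j c ≤ (k - 1) * ∑ c, X i₀ j₀ c := by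
    intro i
    have := Finset.sum_le_card_nsmul (univ.erase i) (fun j => ∑ c, X i j c) (∑ c, X i₀ j₀ c)
      fun j hj => hmax' i j (Finset.ne_of_mem_erase hj).symm
    rwa [nsmul_eq_mul, hcard] at this
  have hHξ₀ : (b (∑ a, L a) (ξ j₀) : ℝ) = ∑ c, X i₀ j₀ c := by simp only [hΛξ, hξ₀]
  have hd' : 0 < d⁻¹ := inv_pos.mpr hd
  refine hH.num (fun a => 1 ⊗ₜ L a) k d t N ρ κ w c₀ hk hk2 hN ht hd ?_ ?_ ?_ ?_ i₀ j₀ _
    (orbital_preconnected (G := G) hij) ?_ (fun j => 1 ⊗ₜ ξ j) (1 ⊗ₜ K) hρ hκ hc₀ ?_ ?_ ?_ ?_ ?_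
    ?_ ?_ ?_
  · rw [TensorProduct.smul_tmul', smul_eq_mul, mul_inv_cancel₀ hd.ne', TensorProduct.tmul_sum]
  · intro a; rw [bR_tmul, hLL]; ring
  · intro a; rw [bR_tmul, hHL]; field_simp
  · rw [bR_tmul, hΛΛ]; field_simp
  · intro a c hac
    rw [SimpleGraph.fromRel_adj] at hac
    rw [bR_tmul, bR_tmul]
    rcases hac.2 with ⟨g, rfl, rfl⟩ | ⟨g, rfl, rfl⟩
    · rw [hG]
    · rw [hb, hG]
  · intro a; rw [bR_tmul, hKL]; ring
  · rw [bR_tmul]; linarith
  · intro j; rw [bR_tmul]; linarith [hrow j j, hXr j]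
  · rw [bR_tmul, hξ₀]
    have := Finset.single_le_sum (f := fun j => X i₀ j i₀)
      (fun j hj => hX0 i₀ j i₀ (Finset.ne_of_mem_erase hj).symm)
      (Finset.mem_erase.mpr ⟨hij.symm, Finset.mem_univ _⟩)
    linarith [hXr i₀]
  · intro j
    rw [bR_tmul, hΛξ]
    refine mul_nonneg (by positivity) (Finset.sum_nonneg fun c _ => ?_)
    rw [hξ]
    exact Finset.sum_nonneg fun i hi => hX0 i j c (Finset.ne_of_mem_erase (hsub j hi))
  · intro j
    rw [bR_tmul, bR_tmul, hHξ₀, hΛξ]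
    have h1 : ∑ c, (b (L c) (ξ j) : ℝ) ≤ ∑ i ∈ univ.erase j, ∑ c, X j i c := by
      rw [Finset.sum_comm]
      exact Finset.sum_le_sum fun c _ => hrow j c
    nlinarith [hrowmax j]
  · rw [bR_tmul, hHξ₀]
    have h1 := hXκ.trans (hrowmax i₁)
    have h2 : N * κ = d⁻¹ * (N * κ * d) := by field_simp
    rw [h2]
    nlinarith
  · simpa only [bR_tmul, one_mul] using hRR

end Crest.Agent.X262.G3Num
end

-- ▼ part X262/G3Num/NumBD
section

/-!
# NUM for b-divisors on a surface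
-/

set_option autoImplicit false

namespace Crest.Agent.X262.G3Num

open Finset Crest.Agent.X277 Crest.Agent.X277.BD

universe u

variable {k F : Type u} [Field k] [Field F] [Algebra k F] [CharZero k] [Algebra.EssFiniteType k F]

variable (k F) in
/-- the intersection form of a surface -/
noncomputable def bil : LinearMap.BilinForm ℤ (BD k F) :=
  LinearMap.mk₂ ℤ (fun a b => bnum [a, b]) (fun a b c => bnum_add a b [c])
    (fun m a b => bnum_zsmul m a [b]) (fun a b c => bnum_add2 a b c [])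
    (fun m a b => bnum_zsmul2 a m b [])

@[simp] theorem bil_apply (a b : BD k F) : bil k F a b = bnum [a, b] := rfl

theorem bnum_sum2 {ι : Type*} (s : Finset ι) (x : BD k F) (a : ι → BD k F) :
    bnum [x, ∑ i ∈ s, a i] = ∑ i ∈ s, bnum [x, a i] := map_sum (bil k F x) a s

/-- **NUM for b-divisors.**  `X i j c = L_c . x_{ij}`; for every ordering of the sheets the graded
pieces `ξ j` have `L_c . ξ_j = ∑_{i < j} X i j c` and satisfy the Riemann–Roch inequality. -/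
theorem num_BD {G ι : Type*} [Group G] [MulAction G ι] [MulAction.IsPreprimitive G ι] [Fintype ι]
    [DecidableEq ι] (L : ι → BD k F)
    (hG : ∀ (g : G) (a c : ι), bnum [L (g • a), L (g • c)] = bnum [L a, L c])
    (n d t N ρ κ w c₀ : ℝ) (hn : n = Fintype.card ι) (hn2 : 2 ≤ n) (hN : 0 < N) (ht : 0 < t)
    (hd : 0 < d) (hLL : ∀ a, (bnum [L a, L a] : ℝ) = N * d)
    (hHL : ∀ c, (bnum [∑ a, L a, L c] : ℝ) = N * t * d ^ 2) (K : BD k F)
    (hρ : 0 ≤ ρ) (hκ : 0 ≤ κ) (hc₀ : 0 ≤ c₀)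
    (hKL : ∀ a, (bnum [K, L a] : ℝ) = -(N * ρ * d)) (hKK : n * N * (ρ ^ 2 / t - w) ≤ bnum [K, K])
    (X : ι → ι → ι → ℝ) (hX0 : ∀ i j c, i ≠ j → 0 ≤ X i j c) (hXs : ∀ i j c, X i j c = X j i c)
    (hXr : ∀ i, ∑ j ∈ univ.erase i, X i j i ≤ N * ρ * d) (i₁ : ι)
    (hXκ : N * κ * d ≤ ∑ j ∈ univ.erase i₁, ∑ c, X i₁ j c)
    (hord : ∀ e : ι ≃ Fin (Fintype.card ι), ∃ ξ : ι → BD k F,
      (∀ j c, (bnum [L c, ξ j] : ℝ) = ∑ i ∈ univ.filter (fun i => e i < e j), X i j c) ∧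
      -(c₀ * (n * N)) ≤ ∑ j, ((bnum [ξ j, ξ j] : ℝ) + bnum [K, ξ j])) :
    κ ^ 2 ≤ 64 * n ^ 12 * (c₀ * t + w * t + ρ ^ 2) := by
  refine num_lattice (G := G) (bil k F) (fun x y => bnum_swap x y []) L (fun x => ?_) hG n d t N ρ κ
    w c₀ hn hn2 hN ht hd hLL hHL K hρ hκ hc₀ hKL hKK X hX0 hXs hXr i₁ hXκ hord
  refine hi (Λ := []) (by simp) ?_ x
  have : (0 : ℝ) < bnum [∑ a, L a, ∑ a, L a] := by
    rw [bnum_sum2]
    push_cast
    simp only [hHL]
    rw [Finset.sum_const, Finset.card_univ, nsmul_eq_mul, ← hn]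
    have : 0 < n := by linarith
    positivity
  exact_mod_cast this

end Crest.Agent.X262.G3Num
end

-- ▼ part X262/Surf/Gal
section

/-!
# Row 262, SURF (helper50), part 6: the sheets of a primitive extension, the numerical inequality
-/

set_option autoImplicit false

noncomputable section

namespace Crest.Agent.X262.Surf

open Crest.Agent.X277 Crest.Agent.X277.Lef Crest.Agent.X277.AN.G1 Crest.Agent.X277.BD
open Crest.Agent.X277.BD.Br Module Filter Finset
open Crest.Agent.X262.Top (K3)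
open Crest.Agent.X262.Gal71

section Ord

variable {ι M : Type} [Fintype ι] [AddCommMonoid M] (e : ι ≃ Fin (Fintype.card ι)) (i₀ : ι)

/-- the enumeration which belongs to an ordering -/
def enu (r : ℕ) : ι := if h : r < Fintype.card ι then e.symm ⟨r, h⟩ else i₀

theorem enu_e (i : ι) : enu e i₀ (e i) = i := by
  rw [enu, dif_pos (e i).2, Fin.eta, e.symm_apply_apply]

theorem e_enu {r : ℕ} (h : r < Fintype.card ι) : (e (enu e i₀ r) : ℕ) = r := by
  rw [enu, dif_pos h, e.apply_symm_apply]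

theorem enu_inj : Set.InjOn (enu e i₀) (Set.Iio (Fintype.card ι)) := fun a ha b hb h => by
  rw [← e_enu e i₀ ha, h, e_enu e i₀ hb]

theorem sum_enu {u : Finset ℕ} {t : Finset ι} (hu : ∀ r ∈ u, r < Fintype.card ι)
    (h : ∀ i, i ∈ t ↔ (e i : ℕ) ∈ u) (f : ι → M) : ∑ r ∈ u, f (enu e i₀ r) = ∑ i ∈ t, f i :=
  sum_nbij' (enu e i₀) (fun i => e i) (fun r hr => (h _).2 (by rwa [e_enu e i₀ (hu r hr)]))
    (fun i hi => (h i).1 hi) (fun r hr => e_enu e i₀ (hu r hr)) (fun i _ => enu_e e i₀ i)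
    fun _ _ => rfl

end Ord

theorem real_to_int {Q T R K c k : ℤ} {d : ℝ} (hd : 0 < d) (hT : 0 < T)
    (h : ((Q : ℝ) / d) ^ 2 ≤ 64 * (k : ℝ) ^ 12 * (c * (T / d ^ 2) +
      ((R : ℝ) ^ 2 / T - K) * (T / d ^ 2) + (R / d) ^ 2)) :
    Q ^ 2 ≤ 64 * k ^ 12 * (c * T + 2 * R ^ 2 - K * T) := by
  have h1 : (0 : ℝ) < T := by exact_mod_cast hT
  have h2 : 64 * (k : ℝ) ^ 12 * (c * (T / d ^ 2) + ((R : ℝ) ^ 2 / T - K) * (T / d ^ 2) +
      (R / d) ^ 2) = 64 * k ^ 12 * (c * T + 2 * R ^ 2 - K * T) / d ^ 2 := by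
    field_simp
    ring
  rw [h2, div_pow, div_le_div_iff_of_pos_right (by positivity)] at h
  exact_mod_cast h

namespace Run

variable {E F Ω : Type} [Field E] [Field F] [Field Ω] [Algebra ℂ E] [Algebra ℂ F] [Algebra ℂ Ω]
  [Algebra E F] [IsScalarTower ℂ E F] [Algebra E Ω] [IsScalarTower ℂ E Ω]
  [Algebra.EssFiniteType ℂ E] [Algebra.EssFiniteType ℂ F] [Algebra.EssFiniteType ℂ Ω]
  [FiniteDimensional E F] [FiniteDimensional E Ω] [IsGalois E Ω] [Fintype (F →ₐ[E] Ω)]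
  [DecidableEq (F →ₐ[E] Ω)] (R : Run E F) (H : Hyps) (p₀ : F →ₐ[E] Ω)

omit [Algebra ℂ E] [Algebra ℂ F] [Algebra ℂ Ω] [IsScalarTower ℂ E F] [IsScalarTower ℂ E Ω]
  [Algebra.EssFiniteType ℂ E] [Algebra.EssFiniteType ℂ F] [Algebra.EssFiniteType ℂ Ω]
  [FiniteDimensional E F] [DecidableEq (F →ₐ[E] Ω)] in
include p₀ in
theorem card_eq : Fintype.card (F →ₐ[E] Ω) = finrank E F := by
  rw [← Nat.card_eq_fintype_card, card_sh p₀]

include H in
/-- the ramification formula -/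
theorem ram (i : F →ₐ[E] Ω) {W : RZ ℂ Ω} (hW : Hor R.B (tw E Ω) W) :
    (pb (sh ℂ i) (kP R.P R.bF)).val W = (R.Kq Ω + ∑ j ∈ univ.erase i, R.x j i).val W := by
  let e := Fintype.equivFin (F →ₐ[E] Ω)
  have h1 := (R.core H (p := enu e i) (card_eq i ▸ enu_inj e i)).2 (e i) (card_eq i ▸ (e i).2) W hW
  rwa [enu_e, sum_enu e i (t := univ.erase i) (f := fun j => R.x j i)
    (fun r hr => card_eq i ▸ mem_range.1 (mem_of_mem_erase hr))
    fun j => by simp [← card_eq i, Fin.val_inj]] at h1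

omit [DecidableEq (F →ₐ[E] Ω)] in
include H p₀ in
theorem core' (e : (F →ₐ[E] Ω) ≃ Fin (Fintype.card (F →ₐ[E] Ω))) :
    ∃ ξ : (F →ₐ[E] Ω) → BD ℂ Ω, (∀ j W, Hor R.B (tw E Ω) W →
      (ξ j).val W = (∑ i ∈ univ.filter (fun i => e i < e j), R.x i j).val W) ∧
      (finrank E Ω : ℤ) * (2 * R.cF - 2 * finrank E F * R.cE) ≤
        ∑ j, (bnum [ξ j, ξ j] + bnum [R.Kq Ω, ξ j]) := by
  have hp : Set.InjOn (enu e p₀) (Set.Iio (finrank E F)) := card_eq p₀ ▸ enu_inj e p₀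
  refine ⟨fun j => R.ξ (enu e p₀) (e j), fun j W hW => ?_, (R.core H hp).1.trans_eq ?_⟩
  · rw [R.ξ_val H hp (card_eq p₀ ▸ (e j).2) hW, enu_e, sum_enu e p₀ (f := fun i => R.x i j)
      (t := univ.filter fun i => e i < e j) (fun r hr => (mem_range.1 hr).trans (e j).2) fun i => by simp]
  · rw [← sum_enu e p₀ (u := range (finrank E F)) (fun r hr => card_eq p₀ ▸ mem_range.1 hr)
      fun i => by simp [← card_eq p₀]]
    exact sum_congr rfl fun r hr => by simp only [e_enu e p₀ (card_eq p₀ ▸ mem_range.1 hr)]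

variable {d : ℕ} (S : K3 F d)

omit [FiniteDimensional E F] in
theorem hor_L {Θ : BD ℂ E} {m : ℕ} (hΘ : Θ ∈ On R.B) (hm : 0 < m)
    (hz : NumZ (m • nm E Ω S.L - Θ)) (c : F →ₐ[E] Ω) {y : BD ℂ Ω}
    (h : ∀ W, Hor R.B (tw E Ω) W → 1 ≤ y.val W) : 0 ≤ bnum [y, pb (sh ℂ c) S.L] := by
  refine Hor83.horStmt E Ω (tw E Ω) R.B R.bE y _ (∑ a ∈ univ.erase c, pb (sh ℂ a) S.L) Θ m R.dim_Ω
    ((K3n.nef_L S).pb _) (Nef.sum _ fun a _ => (K3n.nef_L S).pb _) hΘ hm ?_ h
  have h1 := numZ_pb hz (tw E Ω)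
  rwa [map_sub, map_nsmul, pb_nm, ← add_sum_erase _ _ (mem_univ c)] at h1

omit [FiniteDimensional E F] in
theorem hor_L_eq {Θ : BD ℂ E} {m : ℕ} (hΘ : Θ ∈ On R.B) (hm : 0 < m)
    (hz : NumZ (m • nm E Ω S.L - Θ)) (c : F →ₐ[E] Ω) {y y' : BD ℂ Ω}
    (h : ∀ W, Hor R.B (tw E Ω) W → y.val W = y'.val W) :
    bnum [pb (sh ℂ c) S.L, y] = bnum [pb (sh ℂ c) S.L, y'] := by
  have h1 := R.hor_L S hΘ hm hz c (y := y - y') fun W hW => by
    rw [val_sub, h W hW, div_self (val_ne _ _)]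
  have h2 := R.hor_L S hΘ hm hz c (y := y' - y) fun W hW => by
    rw [val_sub, h W hW, div_self (val_ne _ _)]
  rw [bnum_sub, bnum_swap y, bnum_swap y'] at h1 h2
  linarith

omit [FiniteDimensional E F] [DecidableEq (F →ₐ[E] Ω)] in
include p₀ in
theorem nm_num (y : BD ℂ F) (a : BD ℂ E) : bnum [nm E Ω y, a] = bnum [y, pb (tw E F) a] :=
  bnum_nm p₀ y [a]

omit [FiniteDimensional E F] [DecidableEq (F →ₐ[E] Ω)] in
include p₀ in
theorem sh_num (c : F →ₐ[E] Ω) (y : BD ℂ F) (a : BD ℂ E) :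
    bnum [pb (sh ℂ c) y, pb (tw E Ω) a] = deg (sh ℂ p₀) * bnum [nm E Ω y, a] := by
  rw [nm_num p₀, ← deg_sh_eq c p₀]
  exact bnum_sh c y [a]

omit [FiniteDimensional E F] [DecidableEq (F →ₐ[E] Ω)] in
include p₀ in
theorem th_pos : 0 < bnum [(nm E Ω S.L : BD ℂ E), nm E Ω S.L] := by
  classical
  have h1 := sh_num p₀ p₀ S.L (nm E Ω S.L)
  rw [pb_nm, bnum_sum2, ← add_sum_erase _ _ (mem_univ p₀), bnum_pb2, S.L_sq] at h1
  have h2 : 0 ≤ ∑ a ∈ univ.erase p₀, bnum [pb (sh ℂ p₀) S.L, pb (sh ℂ a) S.L] :=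
    sum_nonneg fun a _ => bnum_nonneg (by simpa using ⟨(K3n.nef_L S).pb _, (K3n.nef_L S).pb _⟩)
  have h3 : (0 : ℤ) < deg (sh ℂ p₀) := Int.natCast_pos.2 (deg_sh_pos p₀)
  have h4 : (0 : ℤ) < d := Int.natCast_pos.2 (K3n.d_pos S)
  exact (mul_pos_iff_of_pos_left h3).1 (h1 ▸ add_pos_of_pos_of_nonneg (mul_pos h3 h4) h2)

include H p₀ in
/-- **the numerical inequality** -/
theorem num (h2 : 2 ≤ finrank E F) (hmax : ∀ M : IntermediateField E F, M = ⊥ ∨ M = ⊤)
    (hS : oP S.P ∈ On R.P) {Θ : BD ℂ E} {m : ℕ} (hΘ : Θ ∈ On R.B) (hm : 0 < m)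
    (hz : NumZ (m • nm E Ω S.L - Θ)) {c : ℤ} (hc : 0 ≤ c)
    (hc' : 2 * finrank E F * R.cE - 2 * R.cF ≤ c) :
    bnum [kP R.B R.bE, nm E Ω S.L] ≤ 0 ∧
      bnum [kP R.P R.bF, pb (tw E F) (nm E Ω S.L)] ^ 2 ≤ 64 * (finrank E F : ℤ) ^ 12 *
        (c * bnum [(nm E Ω S.L : BD ℂ E), nm E Ω S.L] + 2 * bnum [kP R.B R.bE, nm E Ω S.L] ^ 2 -
          bnum [kP R.B R.bE, kP R.B R.bE] * bnum [(nm E Ω S.L : BD ℂ E), nm E Ω S.L]) := by
  have := preprimitive p₀ h2 hmax
  obtain ⟨Th, hTh⟩ : ∃ Th : BD ℂ E, Th = nm E Ω S.L := ⟨_, rfl⟩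
  obtain ⟨N, hN⟩ : ∃ N, N = deg (sh ℂ p₀) := ⟨_, rfl⟩
  let L : (F →ₐ[E] Ω) → BD ℂ Ω := fun a => pb (sh ℂ a) S.L
  have hN0 : (0 : ℤ) < N := Int.natCast_pos.2 (hN ▸ deg_sh_pos p₀)
  have hg : (finrank E Ω : ℤ) = finrank E F * N := by
    rw [← deg_sh_mul (k := ℂ) p₀, Nat.cast_mul, hN]
  have hT : 0 < bnum [Th, Th] := hTh ▸ th_pos p₀ S
  have hx : ∀ i j c, i ≠ j → 0 ≤ bnum [L c, R.x i j] := fun i j c h =>
    (num_nonneg (eff_of_nonneg (R.gen.xx_nonneg h)) ((K3n.nef_L S).pb _)).trans_eq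
      (bnum_swap _ _ _)
  have hK : ∀ a, bnum [L a, R.Kq Ω] = N * bnum [kP R.B R.bE, Th] := fun a => by
    rw [hN, hTh, bnum_swap (kP _ _)]
    exact sh_num p₀ a S.L _
  have hr : ∀ i c, ∑ j ∈ univ.erase i, bnum [L c, R.x i j] =
      bnum [L c, pb (sh ℂ i) (kP R.P R.bF)] - N * bnum [kP R.B R.bE, Th] := fun i c => by
    have h1 : bnum [L c, _] = bnum [L c, _] := R.hor_L_eq S hΘ hm hz c fun W hW => R.ram H i hW
    rw [h1, bnum_add2, hK, bnum_sum2, add_sub_cancel_left]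
    exact sum_congr rfl fun j _ => by rw [x, xx_comm]
  have hr' : ∀ i, ∑ j ∈ univ.erase i, bnum [L i, R.x i j] = -(N * bnum [kP R.B R.bE, Th]) :=
    fun i => by
      have h1 : bnum [L i, pb (sh ℂ i) (kP R.P R.bF)] = _ := bnum_pb2 _ _ _
      rw [hr, h1, bnum_swap S.L, K3n.k_L S H.kexc hS, mul_zero, zero_sub]
  have hρ : bnum [kP R.B R.bE, Th] ≤ 0 := by
    have h1 := sum_nonneg fun j (hj : j ∈ univ.erase p₀) => hx p₀ j p₀ (ne_of_mem_erase hj).symm
    rw [hr'] at h1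
    nlinarith
  have hQ : 0 ≤ bnum [kP R.P R.bF, pb (tw E F) Th] :=
    num_nonneg (K3n.k_eff S hS _) (hTh ▸ (nef_nm (K3n.nef_L S)).pb _)
  have hΛ : ∑ a, L a = pb (tw E Ω) Th := hTh ▸ (pb_nm S.L).symm
  have hLL : ∀ a, bnum [L a, L a] = N * d := fun a => by
    rw [hN, ← deg_sh_eq a p₀, ← S.L_sq]
    exact bnum_pb2 _ _ _
  have hHL : ∀ a, bnum [∑ a, L a, L a] = N * bnum [Th, Th] := fun a => by
    rw [hΛ, bnum_swap, hN]
    nth_rewrite 2 [hTh]
    exact sh_num p₀ a S.L _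
  have hκ : N * bnum [kP R.P R.bF, pb (tw E F) Th] ≤
      ∑ j ∈ univ.erase p₀, ∑ c, bnum [L c, R.x p₀ j] := by
    rw [sum_comm]
    simp only [hr]
    rw [sum_sub_distrib, ← bnum_sum, hΛ, bnum_swap (pb _ Th), sh_num p₀, nm_num p₀, sum_const,
      nsmul_eq_mul, ← hN]
    linarith [mul_nonpos_of_nonneg_of_nonpos (Int.natCast_nonneg (#(univ : Finset (F →ₐ[E] Ω))))
      (mul_nonpos_of_nonneg_of_nonpos hN0.le hρ)]
  have hKK : bnum [R.Kq Ω, R.Kq Ω] = finrank E F * N * bnum [kP R.B R.bE, kP R.B R.bE] := by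
    rw [bnum_pb2, deg_tower, hg]
  have hG : ∀ (g : Ω ≃ₐ[E] Ω) a b, bnum [L (g • a), L (g • b)] = bnum [L a, L b] := fun g a b => by
    simpa only [List.map, pb_au_sh, L] using bnum_au (k := ℂ) g [L a, L b]
  have hord : ∀ e : (F →ₐ[E] Ω) ≃ Fin (Fintype.card (F →ₐ[E] Ω)), ∃ ξ : (F →ₐ[E] Ω) → BD ℂ Ω,
      (∀ j c, bnum [L c, ξ j] = ∑ i ∈ univ.filter (fun i => e i < e j), bnum [L c, R.x i j]) ∧
      -(c * (finrank E F * N)) ≤ ∑ j, (bnum [ξ j, ξ j] + bnum [R.Kq Ω, ξ j]) := fun e => by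
    obtain ⟨ξ, h3, h4⟩ := R.core' H p₀ e
    refine ⟨ξ, fun j c => (R.hor_L_eq S hΘ hm hz c (h3 j)).trans (bnum_sum2 _ _ _),
      le_trans ?_ h4⟩
    rw [← hg]
    nlinarith [Int.natCast_nonneg (finrank E Ω)]
  have hd : (0 : ℝ) < d := Nat.cast_pos.2 (K3n.d_pos S)
  have hT' : (0 : ℝ) < bnum [Th, Th] := Int.cast_pos.2 hT
  rw [← hTh, ← neg_sq (bnum [kP R.B R.bE, Th])]
  refine ⟨hρ, real_to_int hd hT ?_⟩
  refine G3Num.num_BD (G := Ω ≃ₐ[E] Ω) L hG ((finrank E F : ℤ) : ℝ) d (bnum [Th, Th] / d ^ 2) N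
    ((-bnum [kP R.B R.bE, Th] : ℤ) / d) (bnum [kP R.P R.bF, pb (tw E F) Th] / d)
    ((-bnum [kP R.B R.bE, Th] : ℤ) ^ 2 / bnum [Th, Th] - bnum [kP R.B R.bE, kP R.B R.bE]) c
    (by rw [card_eq p₀, Int.cast_natCast]) (by exact_mod_cast h2) (by exact_mod_cast hN0)
    (by positivity) hd (fun a => by exact_mod_cast hLL a) (fun a => ?_) (R.Kq Ω)
    (div_nonneg (Int.cast_nonneg (neg_nonneg.2 hρ)) hd.le) (div_nonneg (Int.cast_nonneg hQ) hd.le)
    (Int.cast_nonneg hc) (fun a => ?_) ?_ (fun i j c => bnum [L c, R.x i j])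
    (fun i j c h => Int.cast_nonneg (hx i j c h)) (fun i j c => by rw [x, xx_comm])
    (fun i => ?_) p₀ ?_ fun e => ?_
  · rw [hHL]
    push_cast
    field_simp
  · rw [bnum_swap, hK]
    push_cast
    field_simp
  · rw [hKK]
    push_cast
    refine le_of_eq ?_
    field_simp
    ring
  · rw [← Int.cast_sum, hr']
    push_cast
    refine le_of_eq ?_
    field_simp
  · rw [mul_assoc, div_mul_cancel₀ _ hd.ne']
    exact_mod_cast hκ
  · obtain ⟨ξ, h3, h4⟩ := hord e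
    exact ⟨ξ, fun j c => by exact_mod_cast h3 j c, by exact_mod_cast h4⟩

end Run

end Crest.Agent.X262.Surf
end
end

-- ▼ part X262/Surf/Eta
section

/-!
# Row 262, SURF (helper50), part 7: the unramified case
-/

set_option autoImplicit false

noncomputable section

namespace Crest.Agent.X262.Surf

open Crest.Agent.X277 Crest.Agent.X277.Lef Crest.Agent.X277.AN.G1 Crest.Agent.X277.BD
open Crest.Agent.X277.BD.Br Module Filter Finset
open Crest.Agent.X262.Gal71

section One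

variable {F : Type} [Field F] [Algebra ℂ F] [Algebra.EssFiniteType ℂ F]

/-- the summands of a numerically trivial sum of effective divisors are numerically trivial -/
theorem num_of_sum {ι : Type} {t : Finset ι} {a : ι → BD ℂ F} (h0 : ∀ i ∈ t, 0 ≤ a i)
    (h : ∀ y, bnum [∑ i ∈ t, a i, y] = 0) {i : ι} (hi : i ∈ t) (y : BD ℂ F) : bnum [a i, y] = 0 := by
  have h1 : ∀ l, Nef l → bnum [a i, l] = 0 := fun l hl =>
    (sum_eq_zero_iff_of_nonneg fun j hj => num_nonneg (eff_of_nonneg (h0 j hj)) hl).1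
      ((bnum_sum _ _ _).symm.trans (h l)) i hi
  obtain ⟨b, c, hb, hc, rfl⟩ := exists_sub y
  rw [bnum_sub2, h1 b hb.nef, h1 c hc.nef, sub_self]

theorem h0_le_add {a e : BD ℂ F} (he : Eff e) : h0 a ≤ h0 (e + a) :=
  Int.ofNat_le.2 (add_comm a e ▸ he.finrank_le a)

end One

namespace Run

variable {E F Ω : Type} [Field E] [Field F] [Field Ω] [Algebra ℂ E] [Algebra ℂ F] [Algebra ℂ Ω]
  [Algebra E F] [IsScalarTower ℂ E F] [Algebra E Ω] [IsScalarTower ℂ E Ω]
  [Algebra.EssFiniteType ℂ E] [Algebra.EssFiniteType ℂ F] [Algebra.EssFiniteType ℂ Ω]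
  [FiniteDimensional E Ω] (R : Run E F) (H : Hyps) {p : ℕ → F →ₐ[E] Ω}

theorem hor_on {y : BD ℂ Ω} (h : ∀ W, Hor R.B (tw E Ω) W → y.val W = 1) {a : BD ℂ E}
    (ha : a ∈ On R.B) : bnum [y, pb (tw E Ω) a] = 0 := by
  have h1 : ∀ l ∈ On R.B, Nef l → bnum [y, pb (tw E Ω) l] = 0 := fun l hl hn => by
    have h2 := fun (z : BD ℂ Ω) => Hor83.horStmt E Ω (tw E Ω) R.B R.bE z (pb (tw E Ω) l) 0 l 1
      R.dim_Ω (hn.pb (tw E Ω)) Nef.zero hl one_pos
      (by rw [add_zero, one_smul, sub_self]; exact NumZ.zero)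
    have h3 := h2 y fun W hW => (h W hW).ge
    have h4 := h2 (-y) fun W hW => by rw [val_neg, h W hW, inv_one]
    rw [bnum_neg] at h4
    linarith
  obtain ⟨b, hb, N, hf, rfl⟩ := exists_sub_On ha
  rw [map_sub, bnum_sub2, h1 b hb hf.nef, h1 _ (nsmul_mem oP_mem N) (free_oP.nef.nsmul N), sub_self]

variable [FiniteDimensional E F]

include H in
theorem ξ_num (hp : Set.InjOn p (Set.Iio (finrank E F))) (hK : Lin (kP R.B R.bE) 0)
    (h0 : bnum [kP R.P R.bF, pb (tw E F) (oP R.B)] = 0) {r : ℕ} (hr : r < finrank E F)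
    (y : BD ℂ Ω) : bnum [R.ξ p r, y] = 0 := by
  let w : Basis (Fin (finrank E F)) E F := finBasis E F
  have h1 : ∀ i < finrank E F, ∀ a ∈ (range (finrank E F)).erase i, 0 ≤ R.x (p a) (p i) :=
    fun i hi a ha => R.gen.xx_nonneg fun h =>
      ne_of_mem_erase ha (hp (mem_range.1 (mem_of_mem_erase ha)) hi h)
  have h2 : ∀ i < finrank E F, ∀ a ∈ (range (finrank E F)).erase i, ∀ W,
      Hor R.B (tw E Ω) W → (R.x (p a) (p i)).val W = 1 := fun i hi a ha => by
    have h3 := R.hor_eq ((R.core H hp).2 i hi)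
    rw [bnum_add, bnum_sum, bnum_pb2, hK.bnum_eq, bnum_zero, mul_zero, zero_add, Hq,
      ← pb_sh_inc (p i), bnum_pb2, h0, mul_zero, pb_sh_inc] at h3
    exact Hor83.hor0Stmt E Ω (tw E Ω) R.B R.bE _ R.dim_Ω (fun W _ => h1 i hi a ha W)
      ((sum_eq_zero_iff_of_nonneg fun j hj => num_nonneg (eff_of_nonneg (h1 i hi j hj))
        (free_oP.nef.pb _)).1 h3.symm a ha).le
  have h3 : ∀ W, Hor R.B (tw E Ω) W → (∑ r ∈ range (finrank E F), R.ξ p r).val W = 1 :=
    fun W hW => by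
      rw [val_sum]
      refine prod_eq_one fun i hi => ?_
      rw [R.ξ_val H hp (mem_range.1 hi) hW, val_sum]
      exact prod_eq_one fun a ha => h2 i (mem_range.1 hi) a (mem_erase.2 ⟨(mem_range.1 ha).ne,
        mem_range.2 ((mem_range.1 ha).trans (mem_range.1 hi))⟩) W hW
  have h4 : ∀ r ∈ range (finrank E F), 0 ≤ R.ξ p r := fun r hr =>
    sub_nonneg.2 (Nm_le ((rk_cj w R.gen.span hp).of_le (mem_range.1 hr)) (R.gen.cj_mem _))
  refine num_of_sum h4 (fun y => ?_) (mem_range.2 hr) y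
  have h5 : 0 < bnum [R.Hq Ω, R.Hq Ω] := by
    rw [bnum_pb2, deg_tower]
    exact mul_pos (Int.natCast_pos.2 finrank_pos) (oP_sq_pos _ R.bE)
  refine eq_case0 (Λ := []) (by simp) (free_oP.nef.pb _) h5 (R.hor_on h3 oP_mem) ?_ y
  have h6 := (R.Dm_eq (p := p) (finrank E F)).symm.trans (Dm_cj w R.gen.span hp)
  rw [sub_eq_iff_eq_add', ← sub_eq_iff_eq_add] at h6
  nth_rewrite 2 [← h6]
  rw [bnum_sub2, bnum_add2, bnum_nsmul2, R.hor_on h3 oP_mem,
    R.hor_on h3 (H.pure E F R.B R.bE _ _ _ _ w R.gen), bnum_swap, bnum_pr]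
  simp

include H in
/-- **an unramified cover multiplies the Euler characteristic** -/
theorem eta (hp : Set.InjOn p (Set.Iio (finrank E F))) (hK : Lin (kP R.B R.bE) 0)
    (h0 : bnum [kP R.P R.bF, pb (tw E F) (oP R.B)] = 0) (he : Eff (kP R.P R.bF)) :
    finrank E F * R.cE ≤ R.cF := by
  let w : Basis (Fin (finrank E F)) E F := finBasis E F
  have hg : (finrank E Ω : ℤ) ≠ 0 := (Int.natCast_pos.2 finrank_pos).ne'
  have h1 := R.num_Dm w hp (oP R.B)
  have h2 := R.num_Nm H w hp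
  rw [sum_eq_zero fun r hr => R.ξ_num H hp hK h0 (mem_range.1 hr) _, sub_zero, mul_left_comm,
    mul_right_inj' hg] at h1
  rw [sum_eq_zero fun r hr => R.ξ_num H hp hK h0 (mem_range.1 hr) _,
    sum_eq_zero fun r hr => R.ξ_num H hp hK h0 (mem_range.1 hr) _, mul_zero, sub_zero, add_zero,
    mul_left_comm, mul_right_inj' hg] at h2
  obtain ⟨B', h3, h4⟩ := exists_flag H R.B (crd w R.s) (finrank E F)
  have h5 := fun y hy => (H.kexc E R.B B' R.bE h3 y hy).trans ((hK.bnum_eq _).trans (bnum_zero _))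
  obtain ⟨m, h6, h7⟩ := ((H.low E B' R.bE R.cE R.n _ (crd w R.s) (oP R.B)
    (H.bir E _ _ _ _ _ R.chiE) (rk_crd w R.gen.span) h4 h3 (Hor83.isMod_oP _).big).and
      (eventually_gt_atTop 0)).exists
  have h8 := H.kv F R.P R.bF R.cF R.chiF _ (nsmul_mem R.on (R.m0 + m))
    ((free_oP.nef.pb _).nsmul _) (((Hor83.isMod_oP R.B).big.pb _
      ((Hor83.dim_two R.bF).trans (Hor83.dim_two R.bE).symm)).nsmul (by omega))
  rw [rr, add_sub_cancel_left, bnum_add, sq_nsmul, bnum_nsmul2, h0, sq_F w] at h8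
  rw [sum_rr, h1, h2, h5 _ oP_mem, h5 _ (H.pure E F R.B R.bE _ _ _ _ w R.gen)] at h6
  have h9 := R.gen.le_h0 w m
  have h10 := h0_le_add (a := (R.m0 + m) • pb (tw E F) (oP R.B)) he
  push_cast at h8
  linarith

end Run

end Crest.Agent.X262.Surf
end
end

-- ▼ part X262/Surf/G3
section

/-!
# Row 262, SURF (helper50), part 8: the glue `g3_of : Hyps2 → G3Stmt`
-/

set_option autoImplicit false

noncomputable section

namespace Crest.Agent.X262.Surf

open Crest.Agent.X277 Crest.Agent.X277.Lef Crest.Agent.X277.AN.G1 Crest.Agent.X277.BD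
open Crest.Agent.X277.BD.Br Module Filter Finset
open Crest.Agent.X262.Top (K3)
open Crest.Agent.X262.Gal71

/-- all packages of the layer -/
structure Hyps2 : Prop extends Hyps where
  rr : RRStmt
  gen : GenStmt
  cmp : CmpStmt
  norm : NormStmt
  chi : K3ChiStmt
  trk : TrkStmt
  kk : KStmt
  unim : UnimStmt
  econ : EconStmt

/-- the bound if `p_g = 0` downstairs -/
theorem arith0 {d k T Q R K : ℤ} (hd : 0 < d) (hk : 0 ≤ k) (hT : d ^ 2 ≤ T) (hR : R ≤ 0)
    (h1 : 0 ≤ d * R + 6 * T) (h2 : 0 ≤ d ^ 2 * K + 12 * (d * R) + 36 * T)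
    (h3 : Q ^ 2 ≤ 64 * k ^ 12 * (2 * k * T + 2 * R ^ 2 - K * T))
    (h4 : T ^ 2 ≤ d * (k * T + Q ^ 2)) : d ≤ k + 64 * k ^ 12 * (2 * k + 108) := by
  have hT0 : 0 < T := lt_of_lt_of_le (by positivity) hT
  have hR' : d * R ≤ 0 := mul_nonpos_of_nonneg_of_nonpos hd.le hR
  have h5 : (d * R) ^ 2 ≤ 36 * T ^ 2 := by nlinarith
  have h6 : -(d ^ 2 * K) * T ≤ 36 * T * T := mul_le_mul_of_nonneg_right (by linarith) hT0.le
  have h7 : k * T * d ^ 2 ≤ k * T * T := mul_le_mul_of_nonneg_left hT (by positivity)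
  have h8 : d ^ 2 * (2 * k * T + 2 * R ^ 2 - K * T) ≤ (2 * k + 108) * T ^ 2 := by nlinarith
  have h9 : d ^ 2 * Q ^ 2 ≤ 64 * k ^ 12 * ((2 * k + 108) * T ^ 2) :=
    calc d ^ 2 * Q ^ 2 ≤ d ^ 2 * (64 * k ^ 12 * (2 * k * T + 2 * R ^ 2 - K * T)) :=
          mul_le_mul_of_nonneg_left h3 (by positivity)
      _ = 64 * k ^ 12 * (d ^ 2 * (2 * k * T + 2 * R ^ 2 - K * T)) := by ring
      _ ≤ _ := mul_le_mul_of_nonneg_left h8 (by positivity)
  have h10 := mul_le_mul_of_nonneg_left h4 hd.le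
  refine le_of_mul_le_mul_right ?_ (pow_pos hT0 2)
  linarith

/-- the bound if `p_g > 0` downstairs -/
theorem arith1 {d k T Q : ℤ} (hd : 0 < d) (hk : 0 ≤ k) (hT : 0 < T) (hQ : d ≤ Q)
    (h3 : Q ^ 2 ≤ 64 * k ^ 12 * (4 * k * T)) (h4 : T ^ 2 ≤ d * (k * T + Q ^ 2)) :
    d ≤ 256 * k ^ 13 * (k + 256 * k ^ 13) := by
  have h5 : T ≤ d * (k + 256 * k ^ 13) := by
    refine le_of_mul_le_mul_right ?_ hT
    linarith [mul_le_mul_of_nonneg_left h3 hd.le]
  have h6 : d ^ 2 ≤ Q ^ 2 := pow_le_pow_left₀ hd.le hQ 2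
  have h7 := mul_le_mul_of_nonneg_left h5 (by positivity : 0 ≤ 256 * k ^ 13)
  refine le_of_mul_le_mul_right ?_ hd
  linarith

section Main

variable {E F Ω : Type} [Field E] [Field F] [Field Ω] [Algebra ℂ E] [Algebra ℂ F] [Algebra ℂ Ω]
  [Algebra E F] [IsScalarTower ℂ E F] [Algebra E Ω] [IsScalarTower ℂ E Ω]
  [Algebra.EssFiniteType ℂ E] [Algebra.EssFiniteType ℂ F] [FiniteDimensional E F]
  (H : Hyps2) {d : ℕ} (S : K3 F d)

include H in
theorem exists_run (B : PModel ℂ E) (b : B2 E) {c : ℤ} (hc : Chi B b c) (y : BD ℂ F) :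
    ∃ R : Run E F, R.B = B ∧ R.bE = b ∧ R.cE = c ∧ R.cF = 2 ∧ oP S.P ∈ On R.P ∧ y ∈ On R.P := by
  classical
  obtain ⟨m0, n, s, hs⟩ := H.gen E F B
  obtain ⟨bF, hb⟩ := H.cmp E F b
  obtain ⟨P, hP⟩ := H.res F {pb (tw E F) (oP B), oP S.P, y}
  exact ⟨⟨B, P, b, bF, c, 2, m0, n, s, hs, hb, hP _ (by simp), hc,
    H.bir F _ _ _ _ _ (H.chi F d S)⟩, rfl, rfl, rfl, rfl, hP _ (by simp), hP _ (by simp)⟩

variable [Algebra.EssFiniteType ℂ Ω] [FiniteDimensional E Ω] [IsGalois E Ω] [Fintype (F →ₐ[E] Ω)]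
  (p₀ : F →ₐ[E] Ω)

omit [FiniteDimensional E F] in
include H p₀ in
theorem k_ineq {P : PModel ℂ F} (b : B2 F) (hS : oP S.P ∈ On P)
    (h : pb (tw E F) (nm E Ω S.L) ∈ On P) :
    bnum [(nm E Ω S.L : BD ℂ E), nm E Ω S.L] ^ 2 ≤ d * (finrank E F *
      bnum [(nm E Ω S.L : BD ℂ E), nm E Ω S.L] + bnum [kP P b, pb (tw E F) (nm E Ω S.L)] ^ 2) := by
  have h1 := H.kk F d S P b hS _ h ((nef_nm (K3n.nef_L S)).pb _)
  rwa [bnum_swap _ S.L, ← Run.nm_num p₀, bnum_pb2, deg_tower] at h1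

omit [FiniteDimensional E F] in
include H p₀ in
theorem dvd_th (a : BD ℂ E) : (d : ℤ) ∣ bnum [nm E Ω S.L, a] :=
  Run.nm_num p₀ S.L a ▸ K3n.dvd_L S H.norm _

include H S p₀ in
theorem bound0 (h2 : 2 ≤ finrank E F) (hmax : ∀ M : IntermediateField E F, M = ⊥ ∨ M = ⊤)
    (b : B2 E) (h : ∀ B : PModel ℂ E, ¬ Eff (kP B b)) :
    (d : ℤ) ≤ finrank E F + 64 * (finrank E F : ℤ) ^ 12 * (2 * finrank E F + 108) := by
  classical
  have hd := K3n.d_pos S
  have hn : Nef (nm E Ω S.L) := nef_nm (K3n.nef_L S)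
  have hT := Run.th_pos p₀ S
  obtain ⟨B, h3, h4⟩ := H.econ E b _ d hd h hn
    (hn.big_iff.2 (by rw [Hor83.dim_two b]; exact hT)) (dvd_th H S p₀)
  obtain ⟨θ, -, h5⟩ := H.unim E B b _ d (h B) h3 fun a _ => dvd_th H S p₀ a
  obtain ⟨c, hc⟩ := H.rr E B b
  obtain ⟨R, rfl, rfl, rfl, h6, h7, h8⟩ := exists_run H S B b hc (pb (tw E F) (nm E Ω S.L))
  have h9 := chi_le_one H.ser hc (h _)
  obtain ⟨h10, h11⟩ := R.num H.toHyps p₀ S h2 hmax h7 h3 one_pos
    (by rw [one_smul, sub_self]; exact NumZ.zero) (c := 2 * finrank E F) (by positivity)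
    (by rw [h6]; nlinarith [Int.natCast_nonneg (finrank E F)])
  have h12 : 0 ≤ bnum [_, nm E Ω S.L] := bnum_nonneg (by simpa using ⟨h4, hn⟩)
  have h13 : 0 ≤ bnum [_, _] := bnum_nonneg (l := [_, _]) (by simpa using ⟨h4, h4⟩)
  rw [bnum_add, bnum_nsmul, bnum_nsmul] at h12
  rw [sq_add, sq_nsmul, sq_nsmul, bnum_nsmul, bnum_nsmul2] at h13
  refine arith0 (Int.natCast_pos.2 hd) (Int.natCast_nonneg _) ?_ h10 (by simpa using h12)
    (by push_cast at h13; linarith) h11 (k_ineq H S p₀ R.bF h7 h8)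
  rw [h5.bnum_eq, bnum_swap, h5.bnum_eq, sq_nsmul] at hT ⊢
  exact le_mul_of_one_le_right (by positivity) ((mul_pos_iff_of_pos_left (by positivity)).1 hT)

include H S p₀ in
theorem bound1 (h2 : 2 ≤ finrank E F) (hmax : ∀ M : IntermediateField E F, M = ⊥ ∨ M = ⊤)
    {d' : ℕ} (S' : K3 E d') :
    (d : ℤ) ≤ 256 * (finrank E F : ℤ) ^ 13 * (finrank E F + 256 * (finrank E F : ℤ) ^ 13) := by
  classical
  have hd := K3n.d_pos S
  have hn : Nef (nm E Ω S.L) := nef_nm (K3n.nef_L S)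
  have hT := Run.th_pos p₀ S
  have hc : ∀ R : Run E F, R.cE = 2 → R.cF = 2 →
      2 * finrank E F * R.cE - 2 * R.cF ≤ 4 * finrank E F := fun R h h' => by
    rw [h, h']
    linarith
  have hz : NumZ (d' • nm E Ω S.L - bnum [nm E Ω S.L, S'.L] • S'.L) := by
    obtain ⟨B, hB⟩ := H.res E {oP S'.P, nm E Ω S.L}
    obtain ⟨R, rfl, h3, h4, h5, h6, -⟩ := exists_run H S B S'.b
      (H.bir E _ _ _ _ _ (H.chi E d' S')) 0
    have h7 := (R.num H.toHyps p₀ S h2 hmax h6 (hB (nm E Ω S.L) (by simp)) one_pos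
      (by rw [one_smul, sub_self]; exact NumZ.zero) (by positivity) (hc R h4 h5)).1
    exact K3n.numZ_of_k S' H.kk (hB _ (by simp)) R.bE (hB _ (by simp)) hn
      (h7.antisymm (num_nonneg (K3n.k_eff S' (hB _ (by simp)) _) hn))
  obtain ⟨R, h3, -, h4, h5, h6, h7⟩ := exists_run H S S'.P S'.b (H.chi E d' S')
    (pb (tw E F) (nm E Ω S.L))
  have h8 := (R.num H.toHyps p₀ S h2 hmax h6 (h3 ▸ zsmul_mem S'.L_on _) (K3n.d_pos S') hz
    (by positivity) (hc R h4 h5)).2
  rw [h3, K3n.k_num S', K3n.k_num S', zero_mul, sub_zero, zero_pow two_ne_zero, mul_zero,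
    add_zero] at h8
  refine arith1 (Int.natCast_pos.2 hd) (Int.natCast_nonneg _) hT (Int.le_of_dvd ?_ ?_) h8
    (k_ineq H S p₀ R.bF h6 h7)
  · refine (num_nonneg (K3n.k_eff S h6 _) (hn.pb _)).lt_of_ne' fun h9 => ?_
    have h10 : bnum [nm E Ω S.L, S'.L] ≠ 0 := fun h10 => by
      have h11 := hz.bnum_eq [nm E Ω S.L]
      rw [h10, zero_smul, bnum_zero, bnum_nsmul] at h11
      exact (mul_pos (Int.natCast_pos.2 (K3n.d_pos S')) hT).ne' h11
    have h11 := hz.bnum_eq [nm E Ω (kP R.P R.bF)]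
    rw [bnum_nsmul, bnum_zsmul, bnum_swap, Run.nm_num p₀, h9, mul_zero, eq_comm,
      mul_eq_zero, or_iff_right h10] at h11
    obtain ⟨c, -, h12⟩ := K3n.exists_c S'
    have h13 := h12.bnum_eq [nm E Ω (kP R.P R.bF)]
    rw [bnum_nsmul, h11, mul_zero, bnum_swap, Run.nm_num p₀, ← h3] at h13
    have h14 := R.eta H.toHyps (p := enu (Fintype.equivFin _) p₀)
      (Run.card_eq p₀ ▸ enu_inj _ p₀) (h3 ▸ K3n.lin_k S' _) h13 (K3n.k_eff S h6 _)
    rw [h4, h5] at h14
    omega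
  · rw [← Run.nm_num p₀, bnum_swap]
    exact dvd_th H S p₀ _

end Main

/-- the bound -/
def cG (k : ℕ) : ℕ := k + 64 * k ^ 12 * (2 * k + 108) + 256 * k ^ 13 * (k + 256 * k ^ 13)

theorem cG_mono {k l : ℕ} (h : k ≤ l) : cG k ≤ cG l := by
  unfold cG
  gcongr

theorem bound (H : Hyps2) {E F : Type} [Field E] [Field F] [Algebra ℂ E] [Algebra ℂ F]
    [Algebra E F] [IsScalarTower ℂ E F] [Algebra.EssFiniteType ℂ F] {d : ℕ} (S : K3 F d)
    (h2 : 2 ≤ finrank E F) (hmax : ∀ M : IntermediateField E F, M = ⊥ ∨ M = ⊤) :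
    d ≤ cG (finrank E F) := by
  have := R276.FGSub_595.essFiniteType_of_tower ℂ E F
  have : FiniteDimensional E F := Module.finite_of_finrank_pos (by omega)
  have : CharZero E := charZero_of_injective_algebraMap (algebraMap ℂ E).injective
  obtain ⟨Ω, _, _, ⟨p₀⟩⟩ := exists_closure E F
  have : Algebra.EssFiniteType ℂ Ω := Algebra.EssFiniteType.comp ℂ E Ω
  have : Fintype (F →ₐ[E] Ω) := inferInstance
  have hE : dim ℂ E = 2 :=
    ((deg_pos_iff (tw E F)).1 (by rw [deg_tower]; omega)).symm.trans (K3n.dim_two S)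
  let b : B2 E := finBasisOfFinrankEq E _ hE
  have h3 : (d : ℤ) ≤ cG (finrank E F) := by
    unfold cG
    push_cast
    by_cases h : ∃ B : PModel ℂ E, Eff (kP B b)
    · obtain ⟨B, hB⟩ := h
      obtain ⟨d', ⟨S'⟩⟩ := H.trk E F (tw E F) d S B b hB
      exact (bound1 H S p₀ h2 hmax S').trans (le_add_of_nonneg_left (by positivity))
    · exact (bound0 H S p₀ h2 hmax b (not_exists.1 h)).trans (le_add_of_nonneg_right (by positivity))
  exact_mod_cast h3

/-- **the glue** -/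
theorem g3_of (H : Hyps2) : G3Stmt := by
  refine ⟨cG, fun E F _ _ _ _ _ _ α d k S h2 hk => ?_⟩
  have h1 : finrank α.fieldRange F = deg α := by
    let := α.toRingHom.toAlgebra
    exact (Algebra.finrank_eq_of_equiv_equiv (AlgEquiv.ofInjectiveField α).toRingEquiv
      (RingEquiv.refl F) (by ext; rfl)).symm
  obtain ⟨M, -, h3, h4, h5⟩ := exists_max α.fieldRange (h1 ▸ h2)
  exact (bound H S h3 h5).trans (cG_mono (h4.trans (h1 ▸ hk)))

end Crest.Agent.X262.Surf
end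
end

-- ▼ part X262/Surf/Unim
section

/-!
# Row 262, SURF (helper50), part 9: unimodularity of the numerical lattice if `p_g = 0`
-/

set_option autoImplicit false

noncomputable section

namespace Crest.Agent.X262.Surf

open Crest.Agent.X277 Crest.Agent.X277.Lef Crest.Agent.X277.AN.G1 Crest.Agent.X277.BD
open Crest.Agent.X277.BD.Br Module
open Crest.Agent.X262.Coh Crest.Agent.X262.Int23

variable {C : Th} (A : C.Ax)

include A

theorem itg_c1 (X : SV) {a b : BD ℂ X.F} (ha : a ∈ X.On) (hb : b ∈ X.On) :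
    C.itg X (C.c1 X a * C.c1 X b) = (bnum [a, b] : ℤ) := by
  simpa using A.man.c1_num X [a, b] (by simp [ha, hb])

theorem unimStmt : UnimStmt := by
  intro E _ _ _ B b Θ m h hΘ hd
  rcases Nat.eq_zero_or_pos m with rfl | hm
  · refine ⟨0, zero_mem _, numZ_of_pair (Hor83.dim_two b) fun y => ?_⟩
    rw [smul_zero, sub_zero]
    exact eq_case0 (Λ := []) (by simp) free_oP.nef (oP_sq_pos B b)
      (zero_dvd_iff.1 (hd _ oP_mem)) (zero_dvd_iff.1 (hd _ hΘ)) y
  have h2 : (sv B).dim = 2 := Hor83.dim_two b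
  have := (A.pd (sv B)).1
  have h3 : C.typ (sv B) 2 0 = ⊥ := by
    rw [eff_iff_finrank, not_lt, Nat.le_zero] at h
    exact Submodule.finrank_eq_zero.1 ((A.pg (sv B) 1 b).trans h)
  have h4 : ∀ x ∈ C.dg (sv B) 1, x ∈ C.typ (sv B) 1 1 := fun x hx => by
    obtain ⟨a, ha, y, hy, c, hc, rfl⟩ := dec_one A hx
    have h5 := A.typ.cj _ c hc
    rw [h3, Submodule.mem_bot] at ha h5
    rwa [ha, ← A.man.cj_cj _ c, h5, map_zero, zero_add, add_zero]
  have hm' : (m : ℂ) ≠ 0 := Nat.cast_ne_zero.2 hm.ne'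
  have h5 : (m : ℂ)⁻¹ • C.c1 (sv B) Θ ∈ C.dg (sv B) 1 :=
    Submodule.smul_mem _ _ (A.man.c1_dg _ _ hΘ)
  obtain ⟨θ, h6, h7⟩ := A.l11 _ h2 _ (mem_Lam A h2 h5 fun y hy => by
    obtain ⟨a, ha, rfl⟩ := A.l11 _ h2 y hy (h4 y (A.lam.dg _ y hy))
    obtain ⟨k, hk⟩ := hd a ha
    refine ⟨k, ?_⟩
    rw [smul_mul_assoc, map_smul, itg_c1 A _ hΘ ha, hk, Int.cast_mul, Int.cast_natCast,
      smul_eq_mul, inv_mul_cancel_left₀ hm']) (h4 _ h5)
  have h8 : ∀ y ∈ On B, bnum [Θ - m • θ, y] = 0 := fun y hy => by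
    have h9 := itg_c1 A (sv B) h6 hy
    rw [← h7, smul_mul_assoc, map_smul, itg_c1 A _ hΘ hy, smul_eq_mul,
      inv_mul_eq_iff_eq_mul₀ hm'] at h9
    rw [bnum_sub, bnum_nsmul, sub_eq_zero]
    exact_mod_cast h9
  exact ⟨θ, h6, numZ_of_pair h2 (eq_case0 (Λ := []) (by simp) free_oP.nef (oP_sq_pos B b)
    (h8 _ oP_mem) (h8 _ (sub_mem hΘ (nsmul_mem h6 m))))⟩

end Crest.Agent.X262.Surf
end
end

-- ▼ part X262/Sg1/Coh
section

/-!
# Row 262, SURF (helper1), part 1: Čech cohomology on a model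

* `groth`    : Grothendieck vanishing; `top_big` : the top cohomology of `a + m H`, `H` big;
* `h_iso`, `filt`, `top_of_gen` : isomorphic, filtered and generated families;
* `chi_add`, `chi_lin`, `qq` : the Euler characteristic of a line bundle on a surface.
-/

set_option autoImplicit false

noncomputable section

namespace Crest.Agent.X262.Sg1

open Crest.Agent.R274
open Cx_781 Defs_781 Ses_781 Lat_781 Ser_781 PolyFun_413 Snap_413 Coh_413 Finset
  Num_413 Dim_413 Dev_413 Sec_413 Fuj_413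
open Crest.Agent.X277 Crest.Agent.X277.BD Crest.Agent.X277.AN.G2 Module Filter

universe u w

section Groth

variable {k : Type u} [Field k] {F : Type u} [Field F] [Algebra k F] {n : ℕ}
variable {X : Var k F n} {G : Type w} [AddCommGroup G] {S : Pol X G}

/-- **Grothendieck vanishing** -/
theorem groth (d : ℕ) : ∀ Q : Coh X, DimLT S Q d → ∀ (g : G) (i : ℕ), d ≤ i →
    hh S.toLineSys Q g i = 0 := by
  induction d with
  | zero => exact fun Q h g i _ => by rw [hh_zero_of_dimLT_zero h]; rfl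
  | succ d ih =>
  refine devissage S (fun Q => DimLT S Q (d + 1) → ∀ (g : G) (i : ℕ), d + 1 ≤ i →
    hh S.toLineSys Q g i = 0) ?_ ?_ ?_ ?_
  · intro Q Q' h h1 h2 g i hi
    have h3 := cc_congr h
    rw [← h]
    refine h1 ?_ g i hi
    unfold DimLT at h2 ⊢
    rwa [h3]
  · intro Q h _ g i _
    rw [h]
    rfl
  · intro Q₁ Q₂ Q₃ E h1 h3 h2 g i hi
    obtain ⟨hd1, hd3⟩ := E.dim_of_mid h2
    exact (E.ne g).b_zero (h1 hd1 g i hi) (h3 hd3 g i hi)
  · intro P hP e hd g i hi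
    rw [dimLT_twC] at hd
    rw [hh_twC]
    generalize e • S.H + g = x
    obtain ⟨e1, he1⟩ := exists_global (S := S) hP (0 : G)
    obtain ⟨e2, he2⟩ := serre S (OZ P hP.le) x
    obtain ⟨v, hv, hnz⟩ := he1 (max e1 e2) (le_max_left _ _)
    have E := nex_sec hP (const_mem_Sec (P := P) hv) hnz
    have h1 := ih _ (dim_Csec hP hd (const_mem_Sec (P := P) hv) hnz) x
    obtain ⟨j, rfl⟩ := Nat.exists_eq_succ_of_ne_zero (show i ≠ 0 by omega)
    have h2 := (E.ne x).a_eq_b (i := j) (h1 j (by omega)) (h1 _ (by omega))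
    rw [hh_twC] at h2
    rw [h2, show 0 + max e1 e2 • S.H + x = x + max e1 e2 • S.H by abel]
    exact he2 _ (le_max_right _ _) _ (by omega)

theorem hh_fam (g : G) (i : ℕ) : hh S.toLineSys (OX X) g i = (S.fam g).cech.h i := by
  unfold OX
  rw [hh_ofLat]
  exact ((eqv_tw_O g).H i).finrank_eq

theorem cc_fam (g : G) : cc S.toLineSys (OX X) g = (S.fam g).chi := by
  rw [cc_eq]
  exact sum_congr rfl fun i _ => by rw [hh_fam]

theorem fin_fam (g : G) (i : ℕ) : Module.Finite k ((S.fam g).H i) :=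
  haveI : Module.Finite k ((S.tw (XO X).toFam g).H i) :=
    finite_H (twX S.toLineSys (XO X) g).toLat i
  Module.Finite.equiv ((eqv_tw_O (S := S) g).H i)

/-- the top cohomology decreases if an effective divisor is added -/
theorem top_add {g a : G} {v : F} (hv : v ∈ Γ (S.fam a)) (h0 : v ≠ 0)
    (h : hh S.toLineSys (OX X) g n = 0) : hh S.toLineSys (OX X) (a + g) n = 0 := by
  have hnz := (nz_top (S := S) (g := a)).2 h0
  have E := nex_sec (top X).prime (const_mem_Sec (P := (top X).P) hv) hnz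
  have h1 := groth n _ (dim_Csec (top X).prime (dimLT_top S _)
    (const_mem_Sec (P := (top X).P) hv) hnz) g n le_rfl
  have h2 := (E.ne g).b_zero h h1
  rwa [hh_twC] at h2

end Groth

section Fam

variable {k : Type u} [Field k] {n : ℕ} {V W : Type u} [AddCommGroup V] [Module k V]
  [AddCommGroup W] [Module k W]

/-- isomorphic families -/
theorem h_iso {M : Fam k V n} {N : Fam k W n} (e : V ≃ₗ[k] W) (h : M.Maps N e)
    (h' : N.Maps M e.symm) (p : ℕ) : M.cech.h p = N.cech.h p := by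
  refine (LinearEquiv.ofBijective (h.hom.H p) (H_bijective _ (fun p => ⟨fun a b hab => ?_,
    fun c => ⟨h'.cochMap p c, ?_⟩⟩) p)).finrank_eq
  · exact Subtype.ext (funext fun I => e.injective (congrFun (congrArg Subtype.val hab) I))
  · exact Subtype.ext (funext fun I => e.apply_symm_apply _)

theorem chi_iso {M : Fam k V n} {N : Fam k W n} (e : V ≃ₗ[k] W) (h : M.Maps N e)
    (h' : N.Maps M e.symm) : M.chi = N.chi := by
  simp only [Fam.chi, Cx.eul, h_iso e h h']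

/-- filtered families -/
theorem filt (K : ℕ → Fam k V n) (g : ℕ → Fam k W n) (π : ℕ → V →ₗ[k] W) (m : ℕ)
    (hE : ∀ j < m, Exact (K (j + 1)) (K j) (g j) LinearMap.id (π j))
    (hK : ∀ I, I.Nonempty → ∀ x ∈ (K m).M I, x = 0)
    (hg : ∀ j < m, ∀ p, Module.Finite k ((g j).H p)) : (∀ p, Module.Finite k ((K 0).H p)) ∧
      (K 0).chi = ∑ r ∈ range m, (g r).chi ∧
        ∀ p, (K 0).cech.h p ≤ ∑ r ∈ range m, (g r).cech.h p := by
  induction m generalizing K g π with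
  | zero =>
    have h1 : ∀ p, Subsingleton ((K 0).H p) := fun p => Cx.H_subsingleton_of_X _ _
      ⟨fun a b => Subtype.ext (funext fun I => by
        have h2 : ∀ c : (K 0).coch p, c.1 I = 0 := fun c => by
          by_cases hI : I.card = p + 1
          · exact hK I (nonempty_of_card hI) _ ((c.2 I).1 hI)
          · exact (c.2 I).2 hI
        exact (h2 a).trans (h2 b).symm)⟩
    have h2 : ∀ p, (K 0).cech.h p = 0 := fun p => Module.finrank_zero_of_subsingleton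
    refine ⟨fun p => Module.Finite.of_finite, ?_, fun p => by simp [h2]⟩
    simp [Fam.chi, Cx.eul, h2]
  | succ m ih =>
    obtain ⟨h1, h2, h3⟩ := ih (fun j => K (j + 1)) (fun j => g (j + 1)) (fun j => π (j + 1))
      (fun j hj => hE _ (by omega)) hK fun j hj => hg _ (by omega)
    have E := hE 0 (by omega)
    have h4 := fun p => E.ses.finite_B p (h1 p) (hg 0 (by omega) p)
    refine ⟨h4, ?_, fun p => ?_⟩
    · rw [chi_exact E h1 h4 (hg 0 (by omega)), h2, sum_range_succ']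
    · rw [sum_range_succ']
      exact ((ne_of_ses E.ses h1 h4 (hg 0 (by omega))).b_le p).trans (by
        have := h3 p
        omega)

/-- the top cohomology of a generated family -/
theorem top_of_gen {ι : Type*} [Fintype ι] {M : Fam k V n} {N : Fam k W n} (ρ : ι → W →ₗ[k] V)
    (h : ∀ i, N.Maps M (ρ i)) (hs : ∀ x ∈ M.M univ, ∃ φ : ι → W, (∀ i, φ i ∈ N.M univ) ∧
      x = ∑ i, ρ i (φ i)) (hN : Subsingleton (N.H n)) : Subsingleton (M.H n) := by
  rw [Cx.H_subsingleton_iff] at hN ⊢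
  intro x _
  have hc : ∀ I : Finset (Fin (n + 1)), I.card = n + 1 ↔ I = univ := fun I => by
    rw [← card_eq_iff_eq_univ, Fintype.card_fin]
  obtain ⟨φ, h1, h2⟩ := hs _ ((x.2 univ).1 ((hc _).2 rfl))
  choose c hc' using fun i => exists_coch (M := N) (p := n) (fun I y => I = univ → y = φ i)
    (fun I hI => ⟨φ i, (hc I).1 hI ▸ h1 i, fun _ => rfl⟩) fun I hI h3 => absurd ((hc I).2 h3) hI
  have h3 : x = ∑ i, (h i).hom.f n (c i) := by
    refine Subtype.ext (funext fun I => ?_)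
    by_cases hI : I = univ
    · subst hI
      rw [h2]
      change _ = (((∑ i, (h i).cochMap n (c i) : M.coch n) : TC V n)) univ
      rw [AddSubmonoidClass.coe_finsetSum, Finset.sum_apply]
      exact sum_congr rfl fun i _ => by rw [Fam.Maps.cochMap_coe, hc' i _ rfl]
    · rw [(x.2 I).2 (mt (hc I).1 hI)]
      exact ((Subtype.prop (p := (· ∈ M.coch n)) _ I).2 (mt (hc I).1 hI)).symm
  rw [h3]
  exact Submodule.sum_mem _ fun i _ => (h i).hom.map_B n
    (hN _ (coch_zero_of_lt (Nat.lt_succ_self n) _))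

theorem chi_le {M : Fam k V n} (hn : n = 2) (h : M.cech.h n = 0) : M.chi ≤ finrank k (Γ M) := by
  subst hn
  simp only [Fam.chi, Cx.eul, sum_range_succ, sum_range_zero, h, h0_eq]
  omega

end Fam

section Mdl

variable {k F : Type u} [Field k] [Field F] [Algebra k F] [CharZero k]
  [Algebra.EssFiniteType k F] (M : Mdl k F)

/-- the family of a b-divisor -/
def fm (a : BD k F) : Fam k F (dim k F) := ⟨M.L a, fun _ h => Mdl.L_mono h⟩

variable {M} {a b : BD k F}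

omit [Algebra.EssFiniteType k F] in
theorem fin_fm (ha : a ∈ M.On) (p : ℕ) : Module.Finite k ((fm M a).H p) :=
  fin_fam (S := M.S) ⟨a, ha⟩ p

omit [Algebra.EssFiniteType k F] in
theorem h0_fm (ha : a ∈ M.On) : (fm M a).cech.h 0 = finrank k a.Sec := by
  rw [h0_eq]
  exact congrArg (fun T : Submodule k F => finrank k T) (Mdl.Γ_fam ⟨a, ha⟩)

omit [Algebra.EssFiniteType k F] in
theorem serre_fm (ha : a ∈ M.On) :
    ∀ᶠ m : ℕ in atTop, (fm M (a + m • M.H)).chi = finrank k (a + m • M.H).Sec := by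
  obtain ⟨e, he⟩ := cc_eq_h0 M.S (OX M.X) ⟨a, ha⟩
  filter_upwards [eventually_ge_atTop e.toNat] with m hm
  have h1 := he m (by omega)
  rw [cc_fam, hh_fam, natCast_zsmul] at h1
  exact h1.trans (congrArg _ (h0_fm (add_mem ha (nsmul_mem M.H_mem m))))

/-- the top cohomology of `a + m H` vanishes if `H` is big -/
theorem top_big (hd : 0 < dim k F) (ha : a ∈ M.On) (hb : b ∈ M.On) (hB : Big b) :
    ∀ᶠ m : ℕ in atTop, (fm M (a + m • b)).cech.h (dim k F) = 0 := by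
  obtain ⟨e, he⟩ := serre0 M.S (OX M.X)
  filter_upwards [hB.kodaira (e • M.H - a)] with m ⟨v, hv, h0⟩
  have h1 : m • b - (e • M.H - a) ∈ M.On :=
    sub_mem (nsmul_mem hb m) (sub_mem (zsmul_mem M.H_mem e) ha)
  have h2 := top_add (S := M.S) (a := ⟨_, h1⟩) (by rwa [Mdl.Γ_fam]) h0 (he e le_rfl _ hd)
  rw [hh_fam] at h2
  rwa [show a + m • b = m • b - (e • M.H - a) + e • M.H by abel]

theorem chi_add (hd : dim k F = 2) (ha : a ∈ M.On) (hb : b ∈ M.On) :
    (fm M (a + b)).chi + (fm M 0).chi = (fm M a).chi + (fm M b).chi + bnum [a, b] := by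
  have h := M.inter_eq (L := [⟨a, ha⟩, ⟨b, hb⟩]) hd.symm
  simp only [inter, difs_cons, difs_nil, fwdDiff, zero_add, cc_fam] at h
  change (fm M (a + b)).chi - (fm M a).chi - ((fm M b).chi - (fm M 0).chi) = bnum [a, b] at h
  omega

omit [Algebra.EssFiniteType k F] in
theorem chi_lin (h : Lin a b) : (fm M a).chi = (fm M b).chi := by
  obtain ⟨f, hf, rfl⟩ := h
  refine (chi_iso (LinearEquiv.smulOfNeZero F F f hf |>.restrictScalars k) (fun I _ x hx => ?_)
    fun I _ x hx => ?_).symm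
  · change f * x ∈ M.L _ I
    rw [mul_comm]
    exact Mdl.mul_mem_L hx (Mdl.Sec_le_L _ _ (mem_Sec_pr f))
  · have h1 := Mdl.mul_mem_L hx (Mdl.Sec_le_L (M := M) _ _ (mem_Sec_pr (k := k) f⁻¹))
    rw [pr_inv, add_neg_cancel_right, mul_comm] at h1
    exact h1

variable (M) in
/-- the additive part of the Euler characteristic -/
def qq (a : BD k F) : ℤ := 2 * (fm M a).chi - 2 * (fm M 0).chi - bnum [a, a]

theorem qq_add (hd : dim k F = 2) (ha : a ∈ M.On) (hb : b ∈ M.On) :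
    qq M (a + b) = qq M a + qq M b := by
  have h := chi_add hd ha hb
  have h1 : bnum [a + b, a + b] = bnum [a, a] + 2 * bnum [a, b] + bnum [b, b] := by
    rw [bnum_add, bnum_add2, bnum_add2, bnum_swap b a]
    ring
  unfold qq
  omega

theorem qq_zero : qq M (0 : BD k F) = 0 := by simp [qq, bnum_zero]

theorem qq_lin (h : Lin a b) : qq M a = qq M b := by
  rw [qq, qq, chi_lin h, h.bnum_eq, bnum_swap, h.bnum_eq]

theorem qq_sum (hd : dim k F = 2) {ι : Type*} (s : Finset ι) {f : ι → BD k F}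
    (h : ∀ i ∈ s, f i ∈ M.On) : qq M (∑ i ∈ s, f i) = ∑ i ∈ s, qq M (f i) := by
  classical
  induction s using Finset.induction_on with
  | empty => simpa using qq_zero
  | insert i s hi ih =>
    rw [sum_insert hi, sum_insert hi, qq_add hd (h i (by simp))
      (sum_mem fun j hj => h j (by simp [hj])), ih fun j hj => h j (by simp [hj])]

theorem qq_nsmul (hd : dim k F = 2) (ha : a ∈ M.On) (m : ℕ) : qq M (m • a) = m * qq M a := by
  simpa using qq_sum hd (range m) (f := fun _ => a) fun _ _ => ha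

end Mdl

end Crest.Agent.X262.Sg1
end
end

-- ▼ part X262/Sg1/Lat
section

/-!
# Row 262, SURF (helper1), part 2: the lattice spanned by the columns of a matrix

* `pou`      : partitions of unity on a chart;
* `KF`, `PF`, `KK` : the lattice with its flag, the trivial lattice, the lattice of relations;
* `exact_KF`, `exact_PF`, `exact_KK`, `top_KK`.
-/

set_option autoImplicit false

noncomputable section

namespace Crest.Agent.X262.Sg1

open Crest.Agent.R274
open Cx_781 Defs_781 Ses_781 Lat_781 Finset Matrix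
open Crest.Agent.X277 Crest.Agent.X277.BD Crest.Agent.X277.AN.G2 Module Filter
open Crest.Agent.X277.Cns (KV)
open Crest.Agent.X262.Surf

variable {F : Type} [Field F] {N : ℕ} (Λ : ℕ → Fin N → F)

/-! ### linear algebra -/

/-- a square submatrix -/
abbrev mn (r : ℕ) (c : Fin r → Fin N) : Matrix (Fin r) (Fin r) F := Matrix.of fun i j => Λ i (c j)

/-- the matrix of the first rows as a linear map -/
def ap (r : ℕ) : (Fin N → F) →ₗ[F] (Fin r → F) :=
  Fintype.linearCombination F fun e (i : Fin r) => Λ i e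

theorem ap_apply (r : ℕ) (τ : Fin N → F) (i : Fin r) : ap Λ r τ i = ∑ e, τ e * Λ i e := by
  simp [ap, Fintype.linearCombination_apply]

/-- extension by zero along a choice of columns -/
def spr {r : ℕ} (c : Fin r → Fin N) : (Fin r → F) →ₗ[F] (Fin N → F) :=
  Fintype.linearCombination F fun l => Pi.single (c l) 1

theorem ap_single (r : ℕ) (e : Fin N) : ap Λ r (Pi.single e 1) = fun i : Fin r => Λ i e := by
  simp [ap, Fintype.linearCombination_apply_single]

theorem ap_spr {r : ℕ} (c : Fin r → Fin N) (v : Fin r → F) :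
    ap Λ r (spr c (cramer (mn Λ r c) v)) = (mn Λ r c).det • v := by
  rw [← mulVec_cramer]
  funext i
  simp [spr, Fintype.linearCombination_apply, ap_single, mulVec, dotProduct, mul_comm]

theorem cramer_col {r : ℕ} (c : Fin r → Fin N) (e : Fin N) (l : Fin r) :
    cramer (mn Λ r c) (fun i => Λ i e) l = (mn Λ r (Function.update c l e)).det := by
  rw [cramer_apply]
  congr 1
  ext i j
  by_cases h : j = l
  · simp [h]
  · simp [h]

theorem cramer_last {r : ℕ} (c : Fin (r + 1) → Fin N) (l : Fin (r + 1)) :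
    cramer (mn Λ (r + 1) c) (Pi.single (Fin.last r) 1) l =
      (-1) ^ (r + l : ℕ) * (mn Λ r fun j => c (l.succAbove j)).det := by
  rw [cramer_apply, det_succ_column _ l, sum_eq_single (Fin.last r)]
  · rw [updateCol_self, Pi.single_eq_same, mul_one]
    congr 2
    ext i j
    simp [Fin.succAbove_last]
  · intro i _ hi
    rw [updateCol_self, Pi.single_eq_of_ne hi, mul_zero, zero_mul]
  · simp

/-- the Cramer relations between the columns -/
def rel (r : ℕ) (p : (Fin r → Fin N) × Fin N) : Fin N → F :=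
  (mn Λ r p.1).det • Pi.single p.2 1 - spr p.1 (cramer (mn Λ r p.1) fun i => Λ i p.2)

theorem ap_rel (r : ℕ) (p : (Fin r → Fin N) × Fin N) : ap Λ r (rel Λ r p) = 0 := by
  rw [rel, map_sub, map_smul, ap_single, ap_spr, sub_self]

theorem sum_rel {r : ℕ} (c : Fin r → Fin N) {τ : Fin N → F} (h : ap Λ r τ = 0) :
    ∑ e, τ e • rel Λ r (c, e) = (mn Λ r c).det • τ := by
  have h1 : ∑ e, τ e • (fun i : Fin r => Λ i e) = 0 := h
  simp only [rel, smul_sub, sum_sub_distrib, ← map_smul, ← map_sum, h1, map_zero, sub_zero]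
  funext e
  simp [Pi.single_apply, mul_comm]

variable [Algebra ℂ F] {Λ}

theorem v_sum_le {ι : Type*} {V : RZ ℂ F} {γ : V.1.ValueGroup} {s : Finset ι} {f : ι → F}
    (h : ∀ i ∈ s, V.v (f i) ≤ γ) : V.v (∑ i ∈ s, f i) ≤ γ := V.v.map_sum_le h

theorem v_single (V : RZ ℂ F) (e e' : Fin N) : V.v ((Pi.single e 1 : Fin N → F) e') ≤ 1 := by
  rw [Pi.single_apply]
  split_ifs <;> simp

theorem v_spr {V : RZ ℂ F} {γ : V.1.ValueGroup} {r : ℕ} (c : Fin r → Fin N) {w : Fin r → F}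
    (h : ∀ l, V.v (w l) ≤ γ) (e : Fin N) : V.v (spr c w e) ≤ γ := by
  rw [spr, Fintype.linearCombination_apply, Finset.sum_apply]
  refine v_sum_le fun l _ => ?_
  rw [Pi.smul_apply, smul_eq_mul, map_mul]
  exact (mul_le_of_le_one_right' (v_single V _ _)).trans (h l)

theorem v_det (V : RZ ℂ F) {r : ℕ} (c : Fin r → Fin N) : V.v (mn Λ r c).det ≤ (Dm Λ r).val V :=
  mem_Sec_mxf (fun c => (mn Λ r c).det) c V

theorem v_cramer {V : RZ ℂ F} {γ : V.1.ValueGroup} {r : ℕ} (c : Fin r → Fin N) {τ : Fin N → F}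
    (h : ∀ e, V.v (τ e) ≤ γ) (l : Fin r) :
    V.v (cramer (mn Λ r c) (ap Λ r τ) l) ≤ γ * (Dm Λ r).val V := by
  rw [ap, Fintype.linearCombination_apply, map_sum, Finset.sum_apply]
  refine v_sum_le fun e _ => ?_
  rw [map_smul, Pi.smul_apply, cramer_col, smul_eq_mul, map_mul]
  exact mul_le_mul' (h e) (v_det V _)

theorem v_last (V : RZ ℂ F) {r : ℕ} (c : Fin (r + 1) → Fin N) (l : Fin (r + 1)) :
    V.v (cramer (mn Λ (r + 1) c) (Pi.single (Fin.last r) 1) l) =
      V.v (mn Λ r fun j => c (l.succAbove j)).det := by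
  rw [cramer_last, map_mul, map_pow, Valuation.map_neg, map_one, one_pow, one_mul]

theorem v_rel (V : RZ ℂ F) {r : ℕ} (p : (Fin r → Fin N) × Fin N) (e : Fin N) :
    V.v (rel Λ r p e) ≤ (Dm Λ r).val V := by
  refine (V.v.map_sub _ _).trans (max_le ?_ (v_spr _ (fun l => ?_) e))
  · rw [Pi.smul_apply, smul_eq_mul, map_mul]
    exact (mul_le_of_le_one_right' (v_single V _ _)).trans (v_det V _)
  · rw [cramer_col]
    exact v_det V _

/-! ### charts -/

variable {M : Mdl ℂ F} {I : Finset (Fin (dim ℂ F + 1))} {y : BD ℂ F}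

/-- partitions of unity -/
theorem pou {ι : Type} [Fintype ι] {s : ι → F} (h0 : ∃ i, s i ≠ 0) (hs : mxf ℂ s ∈ M.On)
    (hI : I.Nonempty) : ∃ u : ι → F, (∀ i, u i ∈ M.L (-mxf ℂ s) I) ∧ ∑ i, u i * s i = 1 := by
  classical
  let J : Ideal (M.X.A I) :=
    { carrier := {y | ∃ u : ι → F, (∀ i, u i ∈ M.L (-mxf ℂ s) I) ∧ ∑ i, u i * s i = y}
      add_mem' := by
        rintro a b ⟨u, h1, h2⟩ ⟨u', h3, h4⟩
        exact ⟨u + u', fun i => add_mem (h1 i) (h3 i), by simp [add_mul, sum_add_distrib, h2, h4]⟩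
      zero_mem' := ⟨0, fun _ => zero_mem _, by simp⟩
      smul_mem' := by
        rintro c a ⟨u, h1, h2⟩
        refine ⟨fun i => c * u i, fun i => zero_add (-mxf ℂ s) ▸
          Mdl.mul_mem_L (Mdl.mem_L_zero.2 c.2) (h1 i), ?_⟩
        simp only [mul_assoc, ← mul_sum, h2]
        rfl }
  by_contra hc
  obtain ⟨V, hV, hJ⟩ := VV.exists_of_ne_top J fun h => hc ((Ideal.eq_top_iff_one J).1 h)
  obtain ⟨i, hi⟩ := hI
  let W : RZ ℂ F := ⟨V, KV.of_le hV⟩
  have hV' : M.In W I := Mdl.in_iff_ch.2 hV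
  obtain ⟨f, hf, g, hg, h⟩ := hs i _ (hV'.mono (singleton_subset_iff.2 hi))
  have hf' := Mdl.L_mono (singleton_subset_iff.2 hi) hf
  have hg' := Mdl.L_mono (singleton_subset_iff.2 hi) hg
  obtain ⟨j, hj⟩ := exists_val_mxf (k := ℂ) h0 W
  have h1 : g * s j ∈ M.X.A I := Mdl.mem_L_zero.1 (neg_add_cancel (mxf ℂ s) ▸
    Mdl.mul_mem_L hg' (Mdl.Sec_le_L _ _ (mem_Sec_mxf s j)))
  have h2 := hJ ⟨_, h1⟩ ⟨Pi.single j g, fun l => by
    rw [Pi.single_apply]
    split_ifs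
    exacts [hg', zero_mem _], by simp [Pi.single_apply]⟩
  refine h2.not_ge ?_
  change 1 ≤ W.v (g * s j)
  rw [← h, mul_comm f, map_mul, map_mul, hj]
  exact mul_le_mul_right (hf' W hV') _

variable (M Λ) in
/-- the lattice of the columns, with its flag -/
def KF (k : ℕ) (y : BD ℂ F) (j : ℕ) : Fam ℂ (Fin k → F) (dim ℂ F) where
  M I :=
    { carrier := {v | (∀ V, M.In V I → ∃ τ, (∀ e, V.v (τ e) ≤ y.val V) ∧ v = ap Λ k τ) ∧
        ∀ i : Fin k, i.1 < j → v i = 0}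
      add_mem' := fun ha hb => ⟨fun V hV => by
        obtain ⟨τ, h1, h2⟩ := ha.1 V hV
        obtain ⟨τ', h3, h4⟩ := hb.1 V hV
        exact ⟨τ + τ', fun e => (V.v.map_add _ _).trans (max_le (h1 e) (h3 e)), by
          rw [map_add, ← h2, ← h4]⟩, fun i hi => by simp [ha.2 i hi, hb.2 i hi]⟩
      zero_mem' := ⟨fun V _ => ⟨0, by simp, by simp⟩, fun _ _ => rfl⟩
      smul_mem' := fun c v hv => ⟨fun V hV => by
        obtain ⟨τ, h1, h2⟩ := hv.1 V hV
        exact ⟨c • τ, fun e => (V.v_smul_le c _).trans (h1 e), by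
          rw [LinearMap.map_smul_of_tower, ← h2]⟩, fun i hi => by simp [hv.2 i hi]⟩ }
  mono _ h _ hv := ⟨fun V hV => hv.1 V (hV.mono h), hv.2⟩

variable (M N) in
/-- the trivial lattice, with its flag -/
def PF (y : BD ℂ F) (j : ℕ) : Fam ℂ (Fin N → F) (dim ℂ F) where
  M I :=
    { carrier := {τ | (∀ e, τ e ∈ M.L y I) ∧ ∀ e : Fin N, e.1 < j → τ e = 0}
      add_mem' := fun ha hb => ⟨fun e => add_mem (ha.1 e) (hb.1 e),
        fun i hi => by simp [ha.2 i hi, hb.2 i hi]⟩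
      zero_mem' := ⟨fun _ => zero_mem _, fun _ _ => rfl⟩
      smul_mem' := fun c v hv => ⟨fun e => Submodule.smul_mem _ c (hv.1 e),
        fun i hi => by simp [hv.2 i hi]⟩ }
  mono _ h _ hv := ⟨fun e => Mdl.L_mono h (hv.1 e), hv.2⟩

variable (M Λ) in
/-- the lattice of relations -/
def KK (k : ℕ) (y : BD ℂ F) : Fam ℂ (Fin N → F) (dim ℂ F) where
  M I :=
    { carrier := {τ | (∀ e, τ e ∈ M.L y I) ∧ ap Λ k τ = 0}
      add_mem' := fun ha hb => ⟨fun e => add_mem (ha.1 e) (hb.1 e), by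
        rw [map_add, ha.2, hb.2, add_zero]⟩
      zero_mem' := ⟨fun _ => zero_mem _, map_zero _⟩
      smul_mem' := fun c v hv => ⟨fun e => Submodule.smul_mem _ c (hv.1 e), by
        rw [LinearMap.map_smul_of_tower, hv.2, smul_zero]⟩ }
  mono _ h _ hv := ⟨fun e => Mdl.L_mono h (hv.1 e), hv.2⟩

/-- a coordinate -/
def co (F : Type) [Field F] [Algebra ℂ F] (k j : ℕ) : (Fin k → F) →ₗ[ℂ] F :=
  if h : j < k then LinearMap.proj ⟨j, h⟩ else 0

theorem co_apply {k j : ℕ} (h : j < k) (v : Fin k → F) : co F k j v = v ⟨j, h⟩ := by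
  rw [co, dif_pos h]
  rfl

theorem zero_succ {k j : ℕ} (h : j < k) {v : Fin k → F} (h1 : ∀ i : Fin k, i.1 < j → v i = 0)
    (h2 : co F k j v = 0) (i : Fin k) (hi : i.1 < j + 1) : v i = 0 := by
  rcases (Nat.lt_succ_iff.1 hi).lt_or_eq with h3 | h3
  · exact h1 i h3
  · subst h3
    exact (co_apply h v).symm.trans h2

theorem exact_PF {j : ℕ} (h : j < N) :
    Exact (PF N M y (j + 1)) (PF N M y j) (fm M y) LinearMap.id (co F N j) where
  maps _ _ _ hx := ⟨hx.1, fun e he => hx.2 e (by omega)⟩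
  maps' _ _ x hx := co_apply h x ▸ hx.1 _
  inj _ _ _ _ h := h
  comp _ _ x hx := (co_apply h x).trans (hx.2 _ (Nat.lt_succ_self j))
  ex _ _ x hx h0 := ⟨x, ⟨hx.1, zero_succ h hx.2 h0⟩, rfl⟩
  surj _ _ z hz := ⟨Pi.single ⟨j, h⟩ z, ⟨fun e => by
    rw [Pi.single_apply]
    split_ifs
    exacts [hz, zero_mem _], fun e he => Pi.single_eq_of_ne (fun h1 => by simp [h1] at he) _⟩, by
    simp [co_apply h]⟩

/-- vectors whose Cramer coordinates are bounded come from sections on the chart -/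
theorem exists_lift {r : ℕ} (hr : Rk Λ r) (hD : Dm Λ r ∈ M.On) (hI : I.Nonempty) {v : Fin r → F}
    (h : ∀ c l, cramer (mn Λ r c) v l ∈ M.L (y + Dm Λ r) I) :
    ∃ τ, (∀ e, τ e ∈ M.L y I) ∧ ap Λ r τ = v := by
  obtain ⟨u, h1, h2⟩ := pou (s := fun c => (mn Λ r c).det) hr hD hI
  refine ⟨∑ c, u c • spr c (cramer (mn Λ r c) v), fun e => ?_, ?_⟩
  · rw [Finset.sum_apply]
    refine Submodule.sum_mem _ fun c _ => ?_
    have h3 : spr c (cramer (mn Λ r c) v) e ∈ M.L (y + Dm Λ r) I := fun V hV =>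
      v_spr c (fun l => h c l V hV) e
    have h4 := Mdl.mul_mem_L (h1 c) h3
    rwa [show -mxf ℂ (fun c => (mn Λ r c).det) + (y + Dm Λ r) = y by
      rw [add_comm y]; exact neg_add_cancel_left _ _] at h4
  · simp only [map_sum, map_smul, ap_spr, smul_smul, ← sum_smul, h2, one_smul]

theorem exact_KF {k j : ℕ} (h : j < k) (hr : Rk Λ (j + 1)) (hD : Dm Λ (j + 1) ∈ M.On) :
    Exact (KF Λ M k y (j + 1)) (KF Λ M k y j) (fm M (Nm Λ j + y)) LinearMap.id (co F k j) where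
  maps _ _ _ hx := ⟨hx.1, fun e he => hx.2 e (by omega)⟩
  maps' I _ x hx V hV := by
    obtain ⟨τ, h1, rfl⟩ := hx.1 V hV
    obtain ⟨c, hc⟩ := exists_val_mxf (k := ℂ) hr.of_succ V
    obtain ⟨c0, -⟩ := hr
    have h2 : ap Λ (j + 1) τ = ap Λ k τ ⟨j, h⟩ • Pi.single (Fin.last j) 1 := by
      funext i
      refine Fin.lastCases ?_ (fun i => ?_) i
      · simp [ap_apply]
      · have h3 := hx.2 ⟨i, i.2.trans h⟩ i.2
        rw [ap_apply] at h3
        simp [ap_apply, h3, (Fin.castSucc_lt_last i).ne]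
    have h3 := v_cramer (Λ := Λ) (Fin.snoc c (c0 0) : Fin (j + 1) → Fin N) h1 (Fin.last j)
    rw [h2, map_smul, Pi.smul_apply, smul_eq_mul, map_mul, v_last] at h3
    simp only [Fin.succAbove_last, Fin.snoc_castSucc] at h3
    rw [co_apply h, val_add, Nm, val_sub, div_mul_eq_mul_div, le_div_iff₀ (val_pos _ V),
      mul_comm _ (y.val V)]
    exact (congrArg _ hc).ge.trans h3
  inj _ _ _ _ h := h
  comp _ _ x hx := (co_apply h x).trans (hx.2 _ (Nat.lt_succ_self j))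
  ex _ _ x hx h0 := ⟨x, ⟨hx.1, zero_succ h hx.2 h0⟩, rfl⟩
  surj I hI z hz := by
    obtain ⟨τ, h1, h2⟩ := exists_lift (y := y) hr hD hI (v := z • Pi.single (Fin.last j) 1)
      fun c l => by
        have h3 : cramer (mn Λ (j + 1) c) (Pi.single (Fin.last j) 1) l ∈ M.L (Dm Λ j) I :=
          fun V _ => (v_last V c l).trans_le (v_det V _)
        have h4 := Mdl.mul_mem_L hz h3
        rw [show Nm Λ j + y + Dm Λ j = y + Dm Λ (j + 1) by rw [Nm]; abel] at h4
        rwa [map_smul]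
    refine ⟨ap Λ k τ, ⟨fun V hV => ⟨τ, fun e => h1 e V hV, rfl⟩, fun i hi => ?_⟩, ?_⟩
    · have h3 := congrFun h2 (Fin.castSucc ⟨i, hi⟩)
      rw [ap_apply, Pi.smul_apply, Pi.single_eq_of_ne (Fin.castSucc_lt_last _).ne,
        smul_zero] at h3
      exact (ap_apply Λ k τ i).trans h3
    · have h3 := congrFun h2 (Fin.last j)
      rw [ap_apply] at h3
      rw [co_apply h, ap_apply]
      simpa using h3

theorem exact_KK {k : ℕ} (hr : Rk Λ k) (hD : Dm Λ k ∈ M.On) :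
    Exact (KK Λ M k y) (PF N M y 0) (KF Λ M k y 0) LinearMap.id ((ap Λ k).restrictScalars ℂ) where
  maps _ _ _ hx := ⟨hx.1, fun _ he => absurd he (Nat.not_lt_zero _)⟩
  maps' _ _ x hx := ⟨fun V hV => ⟨x, fun e => hx.1 e V hV, rfl⟩,
    fun _ he => absurd he (Nat.not_lt_zero _)⟩
  inj _ _ _ _ h := h
  comp _ _ _ hx := hx.2
  ex _ _ x hx h0 := ⟨x, ⟨hx.1, h0⟩, rfl⟩
  surj I hI z hz := by
    obtain ⟨τ, h1, h2⟩ := exists_lift (y := y) hr hD hI (v := z) fun c l V hV => by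
      obtain ⟨τ, h1, rfl⟩ := hz.1 V hV
      exact v_cramer c h1 l
    exact ⟨τ, ⟨h1, fun _ he => absurd he (Nat.not_lt_zero _)⟩, h2⟩

theorem top_KK {k : ℕ} (hr : Rk Λ k) (hD : Dm Λ k ∈ M.On)
    (h : Subsingleton ((fm M (-Dm Λ k + y)).H (dim ℂ F))) :
    Subsingleton ((KK Λ M k y).H (dim ℂ F)) := by
  refine top_of_gen (fun p => (LinearMap.toSpanSingleton F _ (rel Λ k p)).restrictScalars ℂ)
    (fun p I _ x hx => ⟨fun e => ?_, ?_⟩) (fun τ hτ => ?_) h
  · have h1 := Mdl.mul_mem_L hx (show rel Λ k p e ∈ M.L (Dm Λ k) I from fun V _ => v_rel V p e)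
    rwa [show -Dm Λ k + y + Dm Λ k = y by abel] at h1
  · change ap Λ k (x • rel Λ k p) = 0
    rw [map_smul, ap_rel, smul_zero]
  · obtain ⟨u, h1, h2⟩ := pou (s := fun c => (mn Λ k c).det) hr hD univ_nonempty
    refine ⟨fun p => u p.1 * τ p.2, fun p => Mdl.mul_mem_L (h1 p.1) (hτ.1 p.2), ?_⟩
    change τ = ∑ p : (Fin k → Fin N) × Fin N, (u p.1 * τ p.2) • rel Λ k p
    simp only [Fintype.sum_prod_type, mul_smul, ← smul_sum, sum_rel Λ _ hτ.2]
    simp only [smul_smul, ← sum_smul, h2, one_smul]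

theorem Γ_KF (k : ℕ) : Γ (KF Λ M k y 0) = latSec Λ k y := by
  ext v
  rw [mem_Γ]
  refine ⟨fun h V => ?_, fun h i => ⟨fun V _ => ?_, fun _ he => absurd he (Nat.not_lt_zero _)⟩⟩
  · obtain ⟨i, hi⟩ := M.exists_in V
    obtain ⟨τ, h1, rfl⟩ := (h i).1 V hi
    exact ⟨τ, h1, ap_apply Λ k τ⟩
  · obtain ⟨τ, h1, h2⟩ := h V
    exact ⟨τ, h1, funext fun i => (h2 i).trans (ap_apply Λ k τ i).symm⟩

theorem filt_KF {k : ℕ} (hr : Rk Λ k) (hD : ∀ r ≤ k, Dm Λ r ∈ M.On) (hy : y ∈ M.On) :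
    (∀ p, Module.Finite ℂ ((KF Λ M k y 0).H p)) ∧
      (KF Λ M k y 0).chi = ∑ r ∈ range k, (fm M (Nm Λ r + y)).chi ∧
        ∀ p, (KF Λ M k y 0).cech.h p ≤ ∑ r ∈ range k, (fm M (Nm Λ r + y)).cech.h p :=
  filt (KF Λ M k y) _ (co F k) k (fun _ hj => exact_KF hj (hr.of_le hj) (hD _ hj))
    (fun _ _ _ hx => funext fun i => hx.2 i i.2) fun _ hj =>
      fin_fm (add_mem (sub_mem (hD _ hj) (hD _ hj.le)) hy)

theorem filt_PF (hy : y ∈ M.On) : (∀ p, Module.Finite ℂ ((PF N M y 0).H p)) ∧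
    (PF N M y 0).chi = N * (fm M y).chi ∧ ∀ p, (PF N M y 0).cech.h p ≤ N * (fm M y).cech.h p := by
  simpa using filt (PF N M y) (fun _ => fm M y) (co F N) N (fun j hj => exact_PF hj)
    (fun _ _ _ hx => funext fun i => hx.2 i i.2) fun _ _ => fin_fm hy

end Crest.Agent.X262.Sg1
end
end

-- ▼ part X262/Sg1/Main
section

/-!
# Row 262, SURF (helper1), part 3: `flagStmt`, `upStmt`, `lowStmt`
-/

set_option autoImplicit false

noncomputable section

namespace Crest.Agent.X262.Sg1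

open Crest.Agent.R274
open Cx_781 Defs_781 Ses_781 Lat_781 Num_413 Finset Matrix
open Crest.Agent.X277 Crest.Agent.X277.Lef Crest.Agent.X277.AN.G1 Crest.Agent.X277.BD Module Filter
open Crest.Agent.X277.BD.Br (On oP kP)
open Crest.Agent.X262.Surf

variable {F : Type} [Field F] [Algebra ℂ F] [Algebra.EssFiniteType ℂ F]

/-- a smooth model as a finite cover of a projective space -/
theorem exists_mdl_oP (P : PModel ℂ F) : ∃ M : Mdl ℂ F, M.H = oP P ∧ On P ≤ M.On := by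
  obtain ⟨M, hM⟩ : VA (oP P) := by
    refine va_mxf ⟨fun f => ?_⟩
    have h : chart ℂ P.y 0 ≤ (qf ℂ P.y).toSubalgebra := Algebra.adjoin_le (by
      rintro _ ⟨j, rfl⟩
      exact div_mem_qf _ _ _)
    obtain ⟨a, ha, c, hc, -, rfl⟩ := P.frac f
    exact isAlgebraic_algebraMap (⟨_, div_mem (h ha) (h hc)⟩ : qf ℂ P.y)
  refine ⟨M, hM, fun a ha => ?_⟩
  obtain ⟨m, h⟩ := Br.serre ha
  obtain ⟨m', h'⟩ := Br.serre (neg_mem ha)
  exact Mdl.mem_On_of_free (m := max m m') (hM ▸ h _ (le_max_left _ _))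
    (hM ▸ h' _ (le_max_right _ _))

variable {P : PModel ℂ F} {b : B2 F} {c : ℤ} {M : Mdl ℂ F}

/-- the Čech Euler characteristic is the Riemann-Roch expression -/
theorem chi_rr (hM : M.H = oP P) (hle : On P ≤ M.On) (h : Chi P b c) {a : BD ℂ F}
    (ha : a ∈ On P) : 2 * (fm M a).chi = rr P b c a := by
  have hd := Hor83.dim_two b
  have h1 : ∀ᶠ m : ℕ in atTop, 2 * (fm M 0).chi + qq M a + bnum [a, kP P b] - 2 * c +
      m * (qq M (oP P) + bnum [oP P, kP P b]) = 0 := by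
    filter_upwards [h a ha, serre_fm (hle ha)] with m h1 h2
    have h3 := qq_add hd (hle ha) (nsmul_mem (hle Br.oP_mem) m)
    rw [qq_nsmul hd (hle Br.oP_mem), qq, ← hM, h2, hM] at h3
    rw [rr, bnum_sub2, bnum_add a _ [kP P b], bnum_nsmul, h0] at h1
    linarith
  obtain ⟨m, hm⟩ := eventually_atTop.1 h1
  have h2 := hm m le_rfl
  have h3 := hm (m + 1) (Nat.le_succ m)
  have h4 : qq M (oP P) + bnum [oP P, kP P b] = 0 := by
    push_cast at h3
    linarith
  rw [h4, qq] at h2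
  rw [rr, bnum_sub2]
  linarith

variable {N k : ℕ} {Λ : ℕ → Fin N → F} {H : BD ℂ F}

omit [Algebra.EssFiniteType ℂ F] in
theorem Nm_mem {G : AddSubgroup (BD ℂ F)} (hD : ∀ r ≤ k, Dm Λ r ∈ G) {r : ℕ} (hr : r ∈ range k) :
    Nm Λ r ∈ G := sub_mem (hD _ (mem_range.1 hr)) (hD _ (mem_range.1 hr).le)

theorem lowStmt : LowStmt := by
  intro F _ _ _ P b c N k Λ H hc hr hD hH hB
  obtain ⟨M, hM, hle⟩ := exists_mdl_oP P
  have hd := Hor83.dim_two b
  have h1 := (eventually_all_finset (range k)).2 fun r hr =>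
    top_big (by omega) (hle (Nm_mem hD hr)) (hle hH) hB
  filter_upwards [h1] with m hm
  obtain ⟨-, h2, h3⟩ := filt_KF (M := M) hr (fun r hr => hle (hD r hr)) (hle (nsmul_mem hH m))
  have h4 := chi_le hd (Nat.le_zero.1 ((h3 _).trans_eq (sum_eq_zero hm)))
  rw [Γ_KF, h2] at h4
  rw [← sum_congr rfl fun r hr => chi_rr hM hle hc (add_mem (Nm_mem hD hr) (nsmul_mem hH m)),
    ← mul_sum]
  omega

omit [Algebra.EssFiniteType ℂ F] in
theorem colSp_le (y : BD ℂ F) :
    colSp Λ k y ≤ (Γ (PF N M y 0)).map ((ap Λ k).restrictScalars ℂ) := by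
  refine Submodule.span_le.2 ?_
  rintro _ ⟨j, τ, h, rfl⟩
  refine ⟨τ • Pi.single j 1, mem_Γ.2 fun i => ⟨fun e => ?_, fun _ he =>
    absurd he (Nat.not_lt_zero _)⟩, ?_⟩
  · rw [Pi.smul_apply, Pi.single_apply]
    split_ifs
    · simpa using Mdl.Sec_le_L _ _ h
    · simp
  · change ap Λ k _ = _
    rw [map_smul, ap_single]
    rfl

theorem upStmt : UpStmt := by
  intro F _ _ _ P b c N k Λ H hc hr hD hH hB
  obtain ⟨M, hM, hle⟩ := exists_mdl_oP P
  have hd := Hor83.dim_two b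
  have hk := hle (hD k le_rfl)
  filter_upwards [top_big (by omega) (neg_mem hk) (hle hH) hB] with m hm
  have hy := hle (nsmul_mem hH m)
  obtain ⟨f3, h2, -⟩ := filt_KF (M := M) hr (fun r hr => hle (hD r hr)) hy
  obtain ⟨f2, h3, h4⟩ := filt_PF (N := N) hy
  have E := exact_KK (y := m • H) hr hk
  have f1 : ∀ p, Module.Finite ℂ ((KK Λ M k (m • H)).H p) := fun p => by
    cases p with
    | zero => exact E.ses.finite_A0 (f2 0)
    | succ p => exact E.ses.finite_A p (f3 p) (f2 _)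
  have h5 := chi_exact E f1 f2 f3
  have := fin_fm (add_mem (neg_mem hk) hy) (dim ℂ F)
  have := top_KK hr hk (Module.finrank_zero_iff.1 hm)
  have h6 := chi_le (M := KK Λ M k (m • H)) hd Module.finrank_zero_of_subsingleton
  have h7 := h4 0
  rw [h0_eq, h0_fm hy] at h7
  have : Module.Finite ℂ (Γ (PF N M (m • H) 0)) :=
    haveI := f2 0
    Module.Finite.equiv (H0equiv _).symm
  have h8 := LinearMap.finrank_range_add_finrank_ker
    (((ap Λ k).restrictScalars ℂ).domRestrict (Γ (PF N M (m • H) 0)))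
  rw [LinearMap.range_domRestrict, LinearMap.ker_domRestrict] at h8
  have h9 := Submodule.finrank_mono (colSp_le (Λ := Λ) (k := k) (M := M) (m • H))
  have h10 : finrank ℂ (Γ (KK Λ M k (m • H))) ≤ finrank ℂ ((LinearMap.ker ((ap Λ k).restrictScalars
      ℂ)).comap (Γ (PF N M (m • H) 0)).subtype) := by
    have h11 : Γ (KK Λ M k (m • H)) ≤ Γ (PF N M (m • H) 0) := fun x hx =>
      mem_Γ.2 fun i => E.maps _ (singleton_nonempty i) x (mem_Γ.1 hx i)
    rw [← (Submodule.comapSubtypeEquivOfLe h11).finrank_eq]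
    exact Submodule.finrank_mono fun x hx => (mem_Γ.1 hx 0).2
  rw [← sum_congr rfl fun r hr => chi_rr hM hle hc (add_mem (Nm_mem hD hr) (nsmul_mem hH m)),
    ← mul_sum, ← chi_rr hM hle hc (nsmul_mem hH m), ← h2, h0]
  zify at h7 h8 h9 h10
  linarith

theorem flagStmt : FlagStmt := by
  intro F _ _ _ N k Λ Λ' T hd hr hr' hT
  let A : Matrix (Fin k) (Fin k) F := Matrix.of fun i a => T i a
  have h1 : ∀ c, (mn Λ' k c).det = A.det * (mn Λ k c).det := fun c => by
    rw [← det_mul]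
    congr 1
    ext i j
    simp [A, mul_apply, hT i i.2, sum_range]
  have hA : A.det ≠ 0 := hr'.elim fun c hc => left_ne_zero_of_mul (h1 c ▸ hc)
  have h2 : Lin (Dm Λ' k) (Dm Λ k) := ⟨_, hA, by
    rw [Dm, Dm, ← mxf_mul hr hA]
    exact congrArg _ (funext h1)⟩
  refine ⟨h2, ?_⟩
  obtain ⟨M, hM⟩ := exists_mdl ((List.range (k + 1)).map (Dm Λ) ++ (List.range (k + 1)).map (Dm Λ'))
  have hD : ∀ r ≤ k, Dm Λ r ∈ M.On := fun r h => hM _ (List.mem_append_left _
    (List.mem_map_of_mem (List.mem_range.2 (Nat.lt_succ_of_le h))))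
  have hD' : ∀ r ≤ k, Dm Λ' r ∈ M.On := fun r h => hM _ (List.mem_append_right _
    (List.mem_map_of_mem (List.mem_range.2 (Nat.lt_succ_of_le h))))
  have h3 : ∀ τ, ap Λ' k τ = A *ᵥ ap Λ k τ := fun τ => funext fun i => by
    simp only [ap_apply, mulVec, dotProduct, A, of_apply, hT i i.2, sum_range, mul_sum]
    rw [sum_comm]
    exact sum_congr rfl fun _ _ => sum_congr rfl fun _ _ => by ring
  let e : (Fin k → F) ≃ₗ[F] (Fin k → F) := Matrix.toLinearEquiv' A
    (invertibleOfIsUnitDet A hA.isUnit)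
  have he : ∀ v, e v = A *ᵥ v := fun v => rfl
  have h4 : (KF Λ M k 0 0).chi = (KF Λ' M k 0 0).chi := by
    refine chi_iso (e.restrictScalars ℂ) (fun I _ x hx => ⟨fun V hV => ?_, fun _ he =>
      absurd he (Nat.not_lt_zero _)⟩) fun I _ x hx => ⟨fun V hV => ?_, fun _ he =>
      absurd he (Nat.not_lt_zero _)⟩
    · obtain ⟨τ, h4, rfl⟩ := hx.1 V hV
      exact ⟨τ, h4, (h3 τ).symm⟩
    · obtain ⟨τ, h4, rfl⟩ := hx.1 V hV
      exact ⟨τ, h4, e.symm_apply_eq.2 (h3 τ)⟩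
  rw [(filt_KF hr hD (zero_mem _)).2.1, (filt_KF hr' hD' (zero_mem _)).2.1] at h4
  have h5 := qq_lin (M := M) h2
  rw [← sum_Nm, ← sum_Nm, qq_sum hd _ fun r hr => Nm_mem hD hr,
    qq_sum hd _ fun r hr => Nm_mem hD' hr] at h5
  simp only [qq, sum_sub_distrib, ← mul_sum, add_zero] at h4 h5
  linarith

end Crest.Agent.X262.Sg1
end
end

-- ▼ part X262/Pure/Abs
section

/-!
# Row 262, SURF (helper75): the normalisation of a regular local ring of dimension two is free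

* `isIntegral_of_two` : `(t₁, t₂)` is a regular sequence on the integral closure;
* `linearIndependent_of_min` : a minimal system of generators is free;
* `exists_basis` : the generators contain a basis.
-/

set_option autoImplicit false

open IsLocalRing Submodule

namespace Crest.Agent.X262.Pure

variable {R E F : Type*} [CommRing R] [IsDomain R] [Field E] [Algebra R E] [IsFractionRing R E]
  [Field F] [Algebra E F] [Algebra R F] [IsScalarTower R E F]

theorem mem_range_of_two {t₁ t₂ : R} (hp : Prime t₁) (hd : ¬ t₁ ∣ t₂) {e : E} {m : ℕ} {a c : R}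
    (h1 : algebraMap R E a = e * algebraMap R E t₁ ^ m)
    (h2 : algebraMap R E c = e * algebraMap R E t₂ ^ m) : e ∈ Set.range (algebraMap R E) := by
  have h3 : t₂ ^ m * a = t₁ ^ m * c := IsFractionRing.injective R E (by
    rw [map_mul, map_mul, map_pow, map_pow, h1, h2]; ring)
  obtain ⟨d, rfl⟩ : t₁ ^ m ∣ a :=
    hp.pow_dvd_of_dvd_mul_left m (fun h => hd (hp.dvd_of_dvd_pow h)) ⟨c, h3⟩
  refine ⟨d, mul_left_cancel₀ (pow_ne_zero m ((IsFractionRing.to_map_eq_zero_iff (K := E)).not.2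
    hp.ne_zero)) ?_⟩
  rw [mul_comm _ e, ← h1, map_mul, map_pow]

variable (E) in
theorem isIntegral_of_two [IsIntegrallyClosed R] [FiniteDimensional E F] {t₁ t₂ : R}
    (hp : Prime t₁) (hd : ¬ t₁ ∣ t₂) {θ : F} (h1 : IsIntegral R (t₁ • θ))
    (h2 : IsIntegral R (t₂ • θ)) : IsIntegral R θ := by
  have h0 : IsIntegral E θ := Algebra.IsIntegral.isIntegral θ
  have key : ∀ {t : R}, t ≠ 0 → IsIntegral R (t • θ) → ∀ i, ∃ a : R, algebraMap R E a =
      (minpoly E θ).coeff i * algebraMap R E t ^ ((minpoly E θ).natDegree - i) := by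
    intro t ht h i
    have h3 := minpoly.isIntegrallyClosed_eq_field_fractions' E h
    rw [← algebraMap_smul E, IsIntegrallyClosed.minpoly_smul
      ((IsFractionRing.to_map_eq_zero_iff (K := E)).not.2 ht) h0] at h3
    refine ⟨(minpoly R (algebraMap R E t • θ)).coeff i, ?_⟩
    rw [← Polynomial.coeff_map, ← h3, Polynomial.coeff_scaleRoots]
  have h3 : minpoly E θ ∈ Polynomial.lifts (algebraMap R E) :=
    (Polynomial.lifts_iff_coeff_lifts _).2 fun i => by
      obtain ⟨a, ha⟩ := key hp.ne_zero h1 i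
      obtain ⟨c, hc⟩ := key (fun h : t₂ = 0 => hd (h ▸ dvd_zero _)) h2 i
      exact mem_range_of_two hp hd ha hc
  obtain ⟨q, hq, -, hq'⟩ := Polynomial.lifts_and_natDegree_eq_and_monic h3 (minpoly.monic h0)
  refine ⟨q, hq', ?_⟩
  rw [← Polynomial.aeval_def, ← Polynomial.aeval_map_algebraMap E, hq, minpoly.aeval]

omit [IsDomain R] in
theorem linearIndependent_of_min [IsLocalRing R] [IsNoetherianRing R] {M : Type*} [AddCommGroup M]
    [Module R M] {t₁ t₂ : R} (hm : maximalIdeal R = Ideal.span {t₁, t₂}) {ι : Type*} [Fintype ι]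
    {v : ι → M} (hmin : ∀ a : ι → R, ∑ j, a j • v j = 0 → ∀ j, a j ∈ maximalIdeal R)
    (h1 : ∀ x : M, t₁ • x = 0 → x = 0)
    (h2 : ∀ x ∈ span R (Set.range v), ∀ y ∈ span R (Set.range v), t₂ • x = t₁ • y →
      ∃ z ∈ span R (Set.range v), x = t₁ • z) : LinearIndependent R v := by
  have hj : maximalIdeal R ≤ (⊥ : Ideal R).jacobson := (jacobson_eq_maximalIdeal ⊥ bot_ne_top).ge
  have ht1 : t₁ ∈ maximalIdeal R := hm ▸ Ideal.subset_span (by simp)
  have ht2 : t₂ ∈ maximalIdeal R := hm ▸ Ideal.subset_span (by simp)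
  let φ : (ι → R) →ₗ[R] M := Fintype.linearCombination R v
  have hφ : ∀ a, φ a ∈ span R (Set.range v) := fun a => by
    rw [← Fintype.range_linearCombination]
    exact ⟨a, rfl⟩
  have hφ' : ∀ z ∈ span R (Set.range v), ∃ a, φ a = z := fun z hz => by
    rwa [← Fintype.range_linearCombination] at hz
  let N₀ : Submodule R (ι → R) := LinearMap.range (LinearMap.lsmul R (ι → R) t₁)
  let N : Submodule R (ι → R) := (N₀.map φ).comap φ
  have hN : N ≤ N₀ := by
    refine le_of_le_smul_of_le_jacobson_bot (IsNoetherian.noetherian N) hj fun a ha => ?_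
    obtain ⟨_, ⟨b, rfl⟩, hb⟩ := ha
    have h3 : ∀ j, ∃ c d : R, c * t₁ + d * t₂ = a j := fun j => by
      have h4 := hmin (a - t₁ • b) (by
        have h5 : φ (a - t₁ • b) = 0 := by rw [map_sub, ← hb]; exact sub_self _
        simpa only [φ, Fintype.linearCombination_apply] using h5) j
      have h5 := add_mem h4 (Ideal.mul_mem_right (b j) _ ht1)
      rw [hm, Ideal.mem_span_pair] at h5
      simpa using h5
    choose c d h3 using h3
    have h4 : a = t₁ • c + t₂ • d := funext fun j => by simp [← h3 j, mul_comm]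
    obtain ⟨z, hz, h5⟩ := h2 _ (hφ d) _ (hφ (b - c)) (by
      rw [← map_smul, ← map_smul, smul_sub, map_sub, eq_sub_iff_add_eq', ← map_add, ← h4]
      exact hb.symm)
    obtain ⟨e, rfl⟩ := hφ' z hz
    rw [h4]
    exact add_mem (mem_sup_left ⟨c, rfl⟩)
      (mem_sup_right (smul_mem_smul ht2 ⟨t₁ • e, ⟨e, rfl⟩, by rw [h5, map_smul]⟩))
  have hK : LinearMap.ker φ = ⊥ := by
    refine eq_bot_of_le_smul_of_le_jacobson_bot _ _ (IsNoetherian.noetherian _) (fun a ha => ?_) hj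
    obtain ⟨c, rfl⟩ := hN (show a ∈ N from ⟨0, zero_mem _, by rw [map_zero, ha]⟩)
    exact smul_mem_smul ht1 (h1 _ (by rw [← map_smul]; exact ha))
  exact linearIndependent_iff_injective_fintypeLinearCombination.2 (LinearMap.ker_eq_bot.1 hK)

omit [IsDomain R] in
theorem exists_min [IsLocalRing R] {M : Type*} [AddCommGroup M] [Module R M] {ι : Type*}
    [Fintype ι] (u : ι → M) : ∃ S : Finset ι,
      span R (Set.range fun j : S => u j) = span R (Set.range u) ∧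
      ∀ a : S → R, ∑ j, a j • u j = 0 → ∀ j, a j ∈ maximalIdeal R := by
  classical
  obtain ⟨S, hS, hmin⟩ := exists_minimal_of_wellFoundedLT
    (fun S : Finset ι => ∀ i, u i ∈ span R (u '' S))
    ⟨Finset.univ, fun i => subset_span ⟨i, by simp, rfl⟩⟩
  refine ⟨S, le_antisymm (span_mono (by rintro _ ⟨j, rfl⟩; exact ⟨j, rfl⟩)) (span_le.2 ?_),
    fun a ha j => ?_⟩
  · rintro _ ⟨i, rfl⟩
    rw [show (Set.range fun j : S => u j) = u '' S from (Set.image_eq_range u S).symm]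
    exact hS i
  · by_contra h
    obtain ⟨c, hc⟩ := (notMem_maximalIdeal.1 h).exists_left_inv
    have h1 : u j ∈ span R (u '' (S.erase j : Finset ι)) := by
      rw [← Finset.add_sum_erase _ _ (Finset.mem_univ j), add_eq_zero_iff_eq_neg] at ha
      rw [← one_smul R (u j), ← hc, mul_smul, ha]
      refine smul_mem _ _ (neg_mem (sum_mem fun l hl => smul_mem _ _ (subset_span ⟨l, ?_, rfl⟩)))
      exact Finset.mem_coe.2 (Finset.mem_erase.2
        ⟨fun h => (Finset.mem_erase.1 hl).1 (Subtype.ext h), l.2⟩)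
    have h2 : S ≤ S.erase j := hmin (fun i => span_le.2 (by
      rintro _ ⟨l, hl, rfl⟩
      by_cases h3 : l = j
      · exact h3 ▸ h1
      · exact subset_span ⟨l, by simpa [h3] using hl, rfl⟩) (hS i)) (Finset.erase_subset _ _)
    simpa using h2 j.2

/-- generators of the integral closure contain a basis -/
theorem exists_basis [IsIntegrallyClosed R] [IsLocalRing R] [IsNoetherianRing R] {t₁ t₂ : R}
    (hm : maximalIdeal R = Ideal.span {t₁, t₂}) (hp : Prime t₁) (hd : ¬ t₁ ∣ t₂) {n k : ℕ}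
    (w : Module.Basis (Fin k) E F) {u : Fin n → F}
    (hu : ∀ φ, IsIntegral R φ ↔ φ ∈ span R (Set.range u)) (hs : span E (Set.range u) = ⊤) :
    ∃ c : Fin k → Fin n, IsUnit (w.det fun j => u (c j)) ∧
      ∀ l, u l ∈ span R (Set.range fun j => u (c j)) := by
  classical
  have : FiniteDimensional E F := Module.Finite.of_basis w
  obtain ⟨S, h1, h2⟩ := exists_min (R := R) u
  have h0 : algebraMap R F t₁ ≠ 0 := by
    rw [IsScalarTower.algebraMap_apply R E F, map_ne_zero]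
    exact (IsFractionRing.to_map_eq_zero_iff (K := E)).not.2 hp.ne_zero
  have h3 : LinearIndependent R fun j : S => u j := by
    refine linearIndependent_of_min hm h2 (fun x hx => ?_) fun x hx y hy h => ?_
    · rwa [Algebra.smul_def, mul_eq_zero, or_iff_right h0] at hx
    · rw [h1, ← hu] at hx hy
      have h4 : t₁ • (x / algebraMap R F t₁) = x := by
        rw [Algebra.smul_def, mul_div_cancel₀ _ h0]
      refine ⟨x / algebraMap R F t₁, h1 ▸ (hu _).1 (isIntegral_of_two E hp hd (h4.symm ▸ hx) ?_),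
        h4.symm⟩
      rwa [← smul_div_assoc, h, Algebra.smul_def, mul_div_cancel_left₀ _ h0]
  have h4 : LinearIndependent E fun j : S => u j := (LinearIndependent.iff_fractionRing R E).1 h3
  have h5 : ∀ l, u l ∈ span R (Set.range fun j : S => u j) := fun l => h1 ▸ subset_span ⟨l, rfl⟩
  have h6 : span E (Set.range fun j : S => u j) = ⊤ := by
    rw [eq_top_iff, ← hs, span_le]
    rintro _ ⟨l, rfl⟩
    exact span_subset_span R E _ (h5 l)
  let e : Fin k ≃ S := w.indexEquiv (Module.Basis.mk h4 h6.ge)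
  have h7 : (Set.range fun j => u (e j)) = Set.range fun j : S => u j :=
    e.surjective.range_comp fun j : S => u j
  exact ⟨fun j => e j, w.is_basis_iff_det.1 ⟨h4.comp e e.injective, h7 ▸ h6⟩, h7 ▸ h5⟩

end Crest.Agent.X262.Pure
end

-- ▼ part X262/Pure/Main
section

/-!
# Row 262, SURF (helper75): the normalisation of a smooth surface is locally free

* `pureStmt : Surf.PureStmt`.
-/

set_option autoImplicit false

noncomputable section

namespace Crest.Agent.X262.Pure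

open Crest.Agent.X277 Crest.Agent.X277.Lef Crest.Agent.X277.AN.G1 Crest.Agent.X277.BD
open Crest.Agent.X277.BD.Br Crest.Agent.X262.Surf Submodule

variable {E F : Type} [Field E] [Field F] [Algebra ℂ E] [Algebra ℂ F] [Algebra E F]
  [IsScalarTower ℂ E F] {B : PModel ℂ E}

/-- a local section of a pull-back is integral -/
theorem isIntegral_of_sec {a : BD ℂ E} {x : Pts B} {h : E} (ha : At a x h) {s : F}
    (hs : s ∈ (pb (tw E F) a).Sec) : IsIntegral (lp x).O (h⁻¹ • s) := by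
  have h1 : IsIntegral ((lp x).O.map (tw E F)) (h⁻¹ • s) := Cns.isIntegral_of_val fun W hW => by
    have h2 := hs ⟨W, Cns.KV.of_le hW⟩
    rw [pb, val_mp (ha (rsV (tw E F) ⟨W, Cns.KV.of_le hW⟩) fun f hf => hW _ ⟨f, hf, rfl⟩),
      RZ.le_iff ((map_ne_zero _).2 ha.ne)] at h2
    rwa [Algebra.smul_def, map_inv₀, inv_mul_eq_div]
  let e := (lp x).O.equivMapOfInjective (tw E F) (tw E F).injective
  refine h1.map_of_comp_eq (e.symm : _ →+* (lp x).O) (RingHom.id F) (RingHom.ext fun y => ?_)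
  obtain ⟨y, rfl⟩ := e.surjective y
  exact congrArg (algebraMap (lp x).O F) (e.symm_apply_apply y)

theorem exists_params (b : B2 E) (x : Pts B) : ∃ t₁ t₂ : (lp x).O,
    IsLocalRing.maximalIdeal (lp x).O = Ideal.span {t₁, t₂} ∧ Prime t₁ ∧ ¬ t₁ ∣ t₂ := by
  obtain ⟨i, hi⟩ := exists_pat x
  obtain ⟨z, -, h0, hz⟩ := exists_crd_A b hi
  have h := Res.Log.coords_of_crd b hz h0
  refine ⟨h.el 0, h.el 1, ?_, h.prime 0, ?_⟩
  · rw [← h.span_eq, ← Matrix.range_cons_cons_empty (h.el 0) (h.el 1) ![]]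
    congr 2
    funext l
    fin_cases l <;> rfl
  · rintro ⟨c, hc⟩
    refine h.div_notMem (l := 0) (j := 1) (by decide) ?_
    have h1 : z 1 = z 0 * c := congrArg Subtype.val hc
    rw [h1, mul_div_cancel_left₀ _ (h.ne_zero 0)]
    exact c.2

/-- **the normalisation is locally free** -/
theorem pureStmt : PureStmt := by
  classical
  intro E F _ _ _ _ _ _ _ B b m0 n k s w G x
  obtain ⟨h, hh⟩ := nsmul_mem (oP_mem (P := B)) m0 x
  obtain ⟨t₁, t₂, h1, h2, h3⟩ := exists_params b x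
  have := (lp_fin x).frac
  have : IsIntegrallyClosed (lp x).O := (isIntegrallyClosed_iff E).2 fun {f} hf =>
    ⟨⟨f, Cns.lp_IC x f hf⟩, rfl⟩
  obtain ⟨c, h4, h5⟩ := exists_basis h1 h2 h3 w (u := fun j => h⁻¹ • s j) (fun φ => ⟨fun hφ => by
    obtain ⟨τ, h4, h5⟩ := G.pt x h hh φ hφ
    rw [← inv_smul_smul₀ hh.ne φ, h5, Finset.smul_sum]
    refine sum_mem fun j _ => ?_
    rw [smul_comm]
    exact smul_mem _ (⟨τ j, h4 j⟩ : (lp x).O) (subset_span ⟨j, rfl⟩), fun hφ => by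
    refine (span_le (p := (integralClosure (lp x).O F).toSubmodule)).2 ?_ hφ
    rintro _ ⟨j, rfl⟩
    exact isIntegral_of_sec hh (by rw [map_nsmul]; exact G.mem j)⟩) (by
    rw [eq_top_iff, ← G.span, span_le]
    rintro _ ⟨j, rfl⟩
    rw [← smul_inv_smul₀ hh.ne (s j)]
    exact smul_mem _ _ (subset_span ⟨j, rfl⟩))
  choose a ha using fun l => (mem_span_range_iff_exists_fun _).1 (h5 l)
  have h6 : ∀ l, s l = ∑ j, (a l j : E) • s (c j) := fun l => by
    rw [← smul_inv_smul₀ hh.ne (s l), ← ha l, Finset.smul_sum]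
    exact Finset.sum_congr rfl fun j _ => by
      rw [Subalgebra.smul_def, smul_comm, smul_inv_smul₀ hh.ne]
  have h7 : ∀ c' : Fin k → Fin n, (Matrix.of fun i j : Fin k => crd w s i (c' j)) =
      w.toMatrix fun j => s (c' j) := fun c' => by
    ext i j
    simp [crd, Module.Basis.toMatrix_apply]
  have h8 : (Matrix.of fun i j : Fin k => crd w s i (c j)).det ≠ 0 := by
    rw [h7, ← Module.Basis.det_apply]
    intro h0
    refine h4.ne_zero ?_
    rw [show (fun j => h⁻¹ • s (c j)) = fun j => (fun _ => h⁻¹) j • (fun j => s (c j)) j from rfl,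
      AlternatingMap.map_smul_univ, h0, smul_zero]
  refine ⟨_, at_mxf (s := fun c : Fin k → Fin n =>
    (Matrix.of fun i j : Fin k => crd w s i (c j)).det) (j := c) h8 fun c' => ?_⟩
  have h9 : (Matrix.of fun i j : Fin k => crd w s i (c' j)) =
      (Matrix.of fun i j : Fin k => crd w s i (c j)) * Matrix.of fun i j => (a (c' j) i : E) := by
    rw [h7, h7]
    ext i j
    rw [Matrix.mul_apply, Module.Basis.toMatrix_apply, h6]
    simp [Module.Basis.toMatrix_apply, mul_comm]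
  rw [h9, Matrix.det_mul, mul_div_cancel_left₀ _ h8, Matrix.det_apply']
  exact sum_mem fun σ _ => mul_mem (intCast_mem _ _) (prod_mem fun i _ => (a _ _).2)

end Crest.Agent.X262.Pure
end
end

-- ▼ part X262/Gen/Main
section

/-!
# X262/Gen (helper76): the normalisation in a finite extension is generated in one degree

* `exists_reg` : on a normal model the sections of `(m + 1) H` are generated by those of `m H`;
* `genStmt : Surf.GenStmt`.
-/

set_option autoImplicit false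
set_option linter.unusedSectionVars false

noncomputable section

namespace Crest.Agent.X262.Gen

open Crest.Agent.X277 Crest.Agent.X277.Lef Crest.Agent.X277.AN.G1 Crest.Agent.X277.BD
open Crest.Agent.X277.BD.Br Crest.Agent.X277.Pst Finset
open Crest.Agent.R274 Defs_781 Ses_781 Lat_781 Ser_781 Coh_413

section Reg

universe u

variable {k F : Type u} [Field k] [Field F] [Algebra k F] [CharZero k]

theorem mem_Sec_iff (M : Mdl k F) (m : ℕ) {x : F} :
    x ∈ (m • M.H).Sec ↔ ∀ i, M.t i ^ (-(m : ℤ)) * x ∈ M.X.A {i} := by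
  have key : ∀ i (V : RZ k F), M.In V {i} →
      (M.t i ^ (-(m : ℤ)) * x ∈ V.1 ↔ V.v x ≤ (m • M.H).val V) := fun i V hV => by
    rw [val_nsmul, ← Mdl.in_singleton.1 hV, ← map_pow, RZ.le_iff (pow_ne_zero _ (M.c.t_ne i)),
      zpow_neg, zpow_natCast, mul_comm, div_eq_mul_inv]
  refine ⟨fun h i => Mdl.mem_A.2 fun V hV => (key i V hV).2 (h V), fun h V => ?_⟩
  obtain ⟨i, hi⟩ := M.exists_in V
  exact (key i V hi).1 (Mdl.mem_A.1 (h i) V hi)

/-- the section ring is generated by the coordinates in large degrees -/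
theorem exists_reg (M : Mdl k F) : ∃ m₀ : ℕ, ∀ m, m₀ ≤ m → ∀ φ ∈ ((m + 1) • M.H).Sec,
    ∃ ψ : Fin (dim k F + 1) → F, (∀ j, ψ j ∈ (m • M.H).Sec) ∧ φ = ∑ j, ψ j * M.t j := by
  classical
  let O : Lat M.X.toCoord F := (XO M.X).toLat
  let N : Lat M.X.toCoord (Fin (dim k F + 1) → F) := piLat fun _ => tw O (-1)
  let g : (Fin (dim k F + 1) → F) →ₗ[F] F := Fintype.linearCombination F M.t
  have hN : ∀ {I : Finset (Fin (dim k F + 1))} {i}, i ∈ I → ∀ x,
      x ∈ N.M I ↔ ∀ j, M.t i * x j ∈ M.X.A I := fun hi x => by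
    refine mem_piFam.trans (forall_congr' fun j => ?_)
    refine (mem_tw_iff hi).trans ?_
    rw [neg_neg, zpow_one]
    rfl
  have h1 : N.toFam.Maps O.toFam (kl k g) := by
    rintro I ⟨i, hi⟩ x hx
    change ∑ j, x j • M.t j ∈ M.X.A I
    refine Subalgebra.sum_mem _ fun j _ => ?_
    have e : x j • M.t j = M.t i * x j * (M.t j / M.t i) := by
      have := M.c.t_ne i
      rw [smul_eq_mul]
      field_simp
    rw [e]
    exact mul_mem ((hN hi x).1 hx j) (div_mem_A (X := M.X) hi j)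
  have h2 : ∀ I : Finset (Fin (dim k F + 1)), I.Nonempty → ∀ z ∈ O.M I, ∃ y ∈ N.M I, g y = z := by
    rintro I ⟨i, hi⟩ z hz
    refine ⟨Pi.single i (z / M.t i), (hN hi _).2 fun j => ?_, ?_⟩
    · by_cases hj : j = i
      · rw [hj, Pi.single_eq_same, mul_div_cancel₀ _ (M.c.t_ne i)]
        exact hz
      · rw [Pi.single_eq_of_ne hj, mul_zero]
        exact zero_mem _
    · change ∑ j, _ • M.t j = z
      rw [sum_eq_single i, Pi.single_eq_same, smul_eq_mul, div_mul_cancel₀ _ (M.c.t_ne i)]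
      · intro j _ hj
        rw [Pi.single_eq_of_ne hj, zero_smul]
      · simp
  have E := exact_ker h1 h2
  obtain ⟨e₀, he⟩ := serre_vanishing
    (comap N (LinearMap.ker g).subtype (Submodule.subtype_injective _))
  refine ⟨e₀.toNat, fun m hm φ hφ => ?_⟩
  have E' := exact_tw E ((m + 1 : ℕ) : ℤ)
  obtain ⟨y, hy, hy'⟩ := Gg_413.Γ_surj E'.maps'
    (E'.ses.ψH_surjective 0 (he _ (by omega) 1 one_pos)) (z := φ) (mem_Γ.2 fun i =>
      (mem_tw_iff (mem_singleton_self i)).2 ((mem_Sec_iff M _).1 hφ i))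
  refine ⟨y, fun j => (mem_Sec_iff M m).2 fun i => ?_, hy'.symm⟩
  have h3 := (hN (mem_singleton_self i) _).1 ((mem_tw_iff (mem_singleton_self i)).1 (mem_Γ.1 hy i)) j
  convert h3 using 1
  change _ = M.t i * (M.t i ^ (-((m + 1 : ℕ) : ℤ)) * y j)
  rw [← mul_assoc, mul_comm (M.t i), ← zpow_add_one₀ (M.c.t_ne i)]
  congr 2
  omega

end Reg

variable {E F : Type} [Field E] [Field F] [Algebra ℂ E] [Algebra ℂ F] [Algebra E F]
  [IsScalarTower ℂ E F]

open Surf (tw Gen)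

theorem A_le_loc (B : PModel ℂ E) {i : Fin (B.N + 1)} {V : RZ ℂ E}
    (h : V.v (B.y i) = (oP B).val V) : B.A i ≤ loc (oP B) V := by
  refine Algebra.adjoin_le ?_
  rintro _ ⟨j, rfl⟩
  exact div_mem_loc (m := 1) (by simpa using y_mem_Sec j) (by simpa using y_mem_Sec i)
    (by simpa using h)

theorem lp_le_loc {B : PModel ℂ E} {x : Pts B} {V : RZ ℂ E} (h : Cns.Ov x V.1) :
    (lp x).O ≤ loc (oP B) V := by
  intro f hf
  obtain ⟨i, hi⟩ := exists_pat x
  have h1 := A_le_loc B (at_y hi V h)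
  have h2 := hf
  rw [lp_eq hi, mem_lpAt] at h2
  obtain ⟨a, c, hc, h3⟩ := h2
  have h4 : ev (c : E) x ≠ 0 := by
    change (lp x).v _ ≠ 0
    rwa [lp_eq hi, lpAt_v]
  have h5 := ev_ne_iff'.1 h4 V h
  have h6 : f = a * (c : E)⁻¹ := by
    rw [← h3, mul_inv_cancel_right₀ (RZ.ne_zero_iff.1 (h5 ▸ one_ne_zero))]
  rw [h6]
  exact mul_mem (h1 a.2) (Neg.inv_mem_loc (h1 c.2) h5)

theorem mem_loc_top (B : PModel ℂ E) (f : E) : f ∈ loc (oP B) (RZ.top ℂ E) := by
  have h1 := A_le_loc B (i := 0) (V := RZ.top ℂ E) (by rw [RZ.v_top (B.y_ne 0), val_top])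
  obtain ⟨a, ha, c, hc, hc0, rfl⟩ := B.frac' 0 f
  rw [div_eq_mul_inv]
  exact mul_mem (h1 ha) (Neg.inv_mem_loc (h1 hc) (RZ.v_top hc0))

theorem bir_oP (B : PModel ℂ E) : Bir (oP B) := fun f => by
  obtain ⟨m, g, h1, h2, h3⟩ := mem_loc_top B f
  exact ⟨m, g, h1, ne_of_val h2, h3⟩

/-- an element which is integral over a local ring of the model becomes a section -/
theorem exists_mul_mem {H : BD ℂ E} {V : RZ ℂ E} {R : Type} [CommRing R] [Algebra R E]
    [Algebra R F] [IsScalarTower R E F] (hR : ∀ r : R, algebraMap R E r ∈ loc H V) {φ : F}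
    (hφ : IsIntegral R φ) : ∃ (m : ℕ) (g : E), g ∈ (m • H).Sec ∧ V.v g = (m • H).val V ∧
      g • φ ∈ (m • pb (tw E F) H).Sec := by
  classical
  obtain ⟨p, hp, hy⟩ := hφ
  obtain ⟨m, g, h1, h2, h3⟩ := Neg.exists_gen_fin (A := H) (V := V)
    (p.coeffs.image (algebraMap R E)) fun x hx => by
      obtain ⟨r, -, rfl⟩ := Finset.mem_image.1 hx
      exact hR r
  refine ⟨m, g, h1, h2, fun W => ?_⟩
  have h0 : 0 < W.v (algebraMap E F g) := RZ.pos ((map_ne_zero _).2 (ne_of_val h2))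
  rw [Algebra.smul_def, map_mul, mul_comm, ← le_div_iff₀ h0, ← map_nsmul]
  refine Neg.v_le_of_monic W.v hp hy ((one_le_div₀ h0).2 (pb_mem_Sec (α := tw E F) h1 W))
    fun i => ?_
  by_cases hi : p.coeff i = 0
  · simp [hi]
  · rw [le_div_iff₀ h0, ← map_mul, IsScalarTower.algebraMap_apply R E F, ← map_mul]
    exact pb_mem_Sec (α := tw E F)
      (h3 _ (Finset.mem_image_of_mem _ (Polynomial.coeff_mem_coeffs hi))) W

/-- from global to local generation -/
theorem exists_loc {H : BD ℂ E} (hH : Free H) {m₀ n : ℕ} {s : Fin n → F}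
    (hs : ∀ m : ℕ, ∀ φ ∈ ((m₀ + m) • pb (tw E F) H).Sec,
      ∃ τ : Fin n → E, (∀ j, τ j ∈ (m • H).Sec) ∧ φ = ∑ j, τ j • s j)
    {V : RZ ℂ E} {R : Type} [CommRing R] [Algebra R E]
    [Algebra R F] [IsScalarTower R E F] (hR : ∀ r : R, algebraMap R E r ∈ loc H V) {φ : F}
    (hφ : IsIntegral R φ) : ∃ h ∈ (m₀ • H).Sec, V.v h = (m₀ • H).val V ∧
      ∃ τ : Fin n → E, (∀ j, τ j ∈ loc H V) ∧ h • φ = ∑ j, τ j • s j := by
  obtain ⟨m, g, h1, h2, h3⟩ := exists_mul_mem hR hφ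
  obtain ⟨h, h4, h5⟩ := (hH.nsmul m₀).exists_gen V
  have h6 := mul_mem_Sec (pb_mem_Sec (α := tw E F) h4) h3
  rw [map_nsmul, ← add_nsmul] at h6
  obtain ⟨τ, h7, h8⟩ := hs m _ h6
  refine ⟨h, h4, h5, fun j => τ j / g, fun j => div_mem_loc (h7 j) h1 h2, ?_⟩
  have h9 : h • φ = g⁻¹ • (tw E F h * g • φ) := by
    rw [mul_smul_comm, smul_smul, inv_mul_cancel₀ (ne_of_val h2), one_smul, Algebra.smul_def]
    rfl
  rw [h9, h8, smul_sum]
  exact sum_congr rfl fun j _ => by simp only [smul_smul, div_eq_inv_mul]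

theorem exists_glob [Algebra.EssFiniteType ℂ E] [FiniteDimensional E F] (B : PModel ℂ E) :
    ∃ (m₀ n : ℕ) (s : Fin n → F), (∀ j, s j ∈ (m₀ • pb (tw E F) (oP B)).Sec) ∧
      ∀ m : ℕ, ∀ φ ∈ ((m₀ + m) • pb (tw E F) (oP B)).Sec,
        ∃ τ : Fin n → E, (∀ j, τ j ∈ (m • oP B).Sec) ∧ φ = ∑ j, τ j • s j := by
  have : Algebra.EssFiniteType ℂ F := Algebra.EssFiniteType.comp ℂ E F
  have e : pb (tw E F) (oP B) = mxf ℂ fun i => tw E F (B.y i) := pb_mxf _ _
  have h0 : ∃ i, tw E F (B.y i) ≠ 0 := ⟨0, (map_ne_zero _).2 (B.y_ne 0)⟩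
  have h1 : ∀ f : E, algebraMap E F f ∈ (pb (tw E F) (oP B)).sf := by
    have h2 : ∀ a ∈ B.A 0, algebraMap E F a ∈ (pb (tw E F) (oP B)).sf := by
      intro a ha
      have : B.A 0 ≤ (pb (tw E F) (oP B)).sf.toSubalgebra.comap (tw E F) := by
        refine Algebra.adjoin_le ?_
        rintro _ ⟨j, rfl⟩
        change tw E F _ ∈ (pb (tw E F) (oP B)).sf
        rw [map_div₀]
        exact div_mem_sf (pb_mem_Sec (y_mem_Sec j)) (pb_mem_Sec (y_mem_Sec 0))
      exact this ha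
    intro f
    obtain ⟨a, ha, c, hc, -, rfl⟩ := B.frac' 0 f
    rw [map_div₀]
    exact div_mem (h2 a ha) (h2 c hc)
  have h2 : Algebra.IsAlgebraic (pb (tw E F) (oP B)).sf F := by
    letI : Algebra E (pb (tw E F) (oP B)).sf :=
      ((algebraMap E F).codRestrict (pb (tw E F) (oP B)).sf h1).toAlgebra
    haveI : IsScalarTower E (pb (tw E F) (oP B)).sf F :=
      IsScalarTower.of_algebraMap_eq fun _ => rfl
    exact Algebra.IsAlgebraic.tower_top (K := E) _
  obtain ⟨M, hM, h3⟩ := exists_mdl_of (l := fun i => tw E F (B.y i))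
    (fun j => pb_mem_Sec (y_mem_Sec j)) (e ▸ exists_val_mxf h0) h2
  have h4 : ∀ j, ∃ u ∈ (oP B).Sec, M.t j = algebraMap E F u := fun j => by
    obtain ⟨c, hc⟩ := (Submodule.mem_span_range_iff_exists_fun ℂ).1 (h3 j)
    refine ⟨∑ i, c i • B.y i, Submodule.sum_mem _ fun i _ => Submodule.smul_mem _ _ (y_mem_Sec i), ?_⟩
    rw [← hc]
    change _ = tw E F _
    simp only [map_sum, map_smul]
  choose u hu hu' using h4
  obtain ⟨m₀, h5⟩ := exists_reg M
  have := Mdl.fin_Sec (nsmul_mem (Mdl.H_mem (M := M)) m₀)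
  rw [hM] at h5 this
  let b := Module.finBasis ℂ (m₀ • pb (tw E F) (oP B)).Sec
  refine ⟨m₀, _, fun j => b j, fun j => (b j).2, fun m => ?_⟩
  induction m with
  | zero =>
    intro φ hφ
    refine ⟨fun j => algebraMap ℂ E (b.repr ⟨φ, hφ⟩ j), fun j => ?_, ?_⟩
    · simp only [zero_nsmul, Algebra.algebraMap_eq_smul_one]
      exact Submodule.smul_mem _ _ one_mem_Sec
    · have := congrArg Subtype.val (b.sum_repr ⟨φ, hφ⟩)
      simp only [AddSubmonoidClass.coe_finset_sum, SetLike.val_smul] at this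
      simp only [algebraMap_smul]
      exact this.symm
  | succ m ih =>
    intro φ hφ
    obtain ⟨ψ, h6, rfl⟩ := h5 (m₀ + m) (Nat.le_add_right _ _) φ hφ
    choose τ h7 h8 using fun i => ih (ψ i) (h6 i)
    refine ⟨fun j => ∑ i, τ i j * u i, fun j => Submodule.sum_mem _ fun i _ => ?_, ?_⟩
    · rw [succ_nsmul]
      exact mul_mem_Sec (h7 i j) (hu i)
    · simp only [sum_smul]
      rw [sum_comm]
      refine sum_congr rfl fun i _ => ?_
      rw [h8 i, hu', sum_mul]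
      refine sum_congr rfl fun j _ => ?_
      rw [mul_comm (τ i j), mul_smul, Algebra.smul_def (u i), mul_comm]

/-- **the normalisation is finite** -/
theorem genStmt : Surf.GenStmt := by
  intro E F _ _ _ _ _ _ _ _ B
  obtain ⟨m₀, n, s, h1, h2⟩ := exists_glob (F := F) B
  refine ⟨m₀, n, s, h1, h2, fun x h hx φ hφ => ?_, fun V hV h hh φ hφ => ?_, ?_⟩
  · obtain ⟨V, hV, hd⟩ := exists_dom x
    obtain ⟨h', h3, h4, τ, h5, h6⟩ := exists_loc free_oP h2 (V := V)
      (fun r : (lp x).O => lp_le_loc hV r.2) hφ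
    have h7 := hx.of_dom hV hd h3 h4
    refine ⟨fun j => h / h' * τ j, fun j => mul_mem (hx.div_mem_of_le h7 le_rfl) ?_, ?_⟩
    · obtain ⟨m, g, h8, h9, h10⟩ := h5 j
      obtain ⟨g', hg'⟩ := nsmul_mem (oP_mem (P := B)) m x
      have := (hg'.of_dom hV hd h8 h9).div_mem h10
      rwa [mul_div_cancel_right₀ _ (ne_of_val h9)] at this
    · simp only [mul_smul]
      rw [← smul_sum, ← h6, smul_smul, div_mul_cancel₀ _ h7.ne]
  · obtain ⟨h', h3, h4, τ, h5, h6⟩ := exists_loc free_oP h2 (V := V)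
      (fun r : V.1 => Neg.le_loc free_oP (bir_oP B) hV r.2) hφ
    refine ⟨fun j => h / h' * τ j, fun j => mul_mem ?_ (mem_of_loc (h5 j)), ?_⟩
    · exact (RZ.le_iff (ne_of_val h4)).1 (hh.trans h4.symm).le
    · simp only [mul_smul]
      rw [← smul_sum, ← h6, smul_smul, div_mul_cancel₀ _ (ne_of_val h4)]
  · refine Submodule.eq_top_iff'.2 fun φ => ?_
    obtain ⟨h', -, h4, τ, -, h6⟩ := exists_loc free_oP h2 (V := RZ.top ℂ E)
      (fun r : E => mem_loc_top B r) (Algebra.IsIntegral.isIntegral (R := E) φ)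
    rw [← Submodule.smul_mem_iff _ (ne_of_val h4), h6]
    exact Submodule.sum_mem _ fun j _ => Submodule.smul_mem _ _ (Submodule.subset_span ⟨j, rfl⟩)

end Crest.Agent.X262.Gen
end
end

-- ▼ part X262/Gal71/DescS
section

/-!
# Row 262, SURF: `DescStmt`, and the push-forward along an arbitrary finite embedding
-/

set_option autoImplicit false
set_option linter.style.haveILetI false

noncomputable section

namespace Crest.Agent.X262.Gal71

open Module Finset Crest.Agent.X277 Crest.Agent.X277.BD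


universe u

/-- push-forward along a finite embedding: the projection formula -/
theorem exists_push {k E F : Type u} [Field k] [Field E] [Field F] [Algebra k E] [Algebra k F]
    [CharZero k] [Algebra.EssFiniteType k E] [Algebra.EssFiniteType k F] (α : E →ₐ[k] F)
    (hα : 0 < deg α) : ∃ ν : BD k F →+ BD k E,
      (∀ y l, bnum (ν y :: l) = bnum (y :: l.map (pb α))) ∧ (∀ y, Free y → Free (ν y)) ∧
      (∀ y, Nef y → Nef (ν y)) ∧ (∀ y, 0 ≤ y → 0 ≤ ν y) ∧ ∀ a, ν (pb α a) = deg α • a := by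
  classical
  letI := α.toRingHom.toAlgebra
  haveI : IsScalarTower k E F := IsScalarTower.of_algebraMap_eq fun x => (α.commutes x).symm
  haveI : FiniteDimensional E F := Module.finite_of_finrank_pos hα
  haveI : CharZero E := charZero_of_injective_algebraMap (algebraMap k E).injective
  obtain ⟨Ω, h1, h2, ⟨p⟩⟩ := exists_closure E F
  haveI : Algebra.EssFiniteType k Ω := Algebra.EssFiniteType.comp k E Ω
  letI : Fintype (F →ₐ[E] Ω) := Fintype.ofFinite _
  exact ⟨nm E Ω, bnum_nm p, fun _ => free_nm, fun _ => nef_nm, fun _ => nm_nonneg, nm_pb p⟩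

end Crest.Agent.X262.Gal71
end
end

-- ▼ part X262/Gal71/Norm
section

/-!
# Row 262, SURF: `NormStmt` (push-forward of divisors onto a smooth model)
-/

set_option autoImplicit false

namespace Crest.Agent.X262.Gal71

open Crest.Agent.X277 Crest.Agent.X277.Lef Crest.Agent.X277.BD Crest.Agent.X277.BD.Br
open Crest.Agent.X262.Surf

/-- the trace on a smooth surface has the same intersection numbers with divisors of the model -/
theorem bnum_tr {E : Type} [Field E] [Algebra ℂ E] [Algebra.EssFiniteType ℂ E] (hE : dim ℂ E = 2)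
    (B : PModel ℂ E) (a : BD ℂ E) {y : BD ℂ E} (hy : y ∈ On B) :
    bnum [Geo.tr B a, y] = bnum [a, y] :=
  Geo.bnum_tr (fun _ hV h => Hor83.dg_car hE free_oP (Geo.car_of_On hy) hV h) a

theorem normStmt : NormStmt := by
  intro E F _ _ _ _ _ _ α B b a hF
  have hE := Hor83.dim_two b
  obtain ⟨ν, h, -⟩ := exists_push α ((deg_pos_iff α).2 (hF.trans hE.symm))
  exact ⟨Geo.tr B (ν a), Geo.tr_mem _, fun y hy => ((bnum_tr hE B _ hy).trans (h a [y])).symm⟩

end Crest.Agent.X262.Gal71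
end

-- ▼ part X262/G3Num/Econ

/-!
# Row 262, SURF: the economical base (`EconStmt`)

`Θ ≡ m θ`; `χ(K + j θ) = h⁰(K + j θ)` is a quadratic polynomial in `j`, so one of `K + θ`, `K + 2 θ`,
`K + 3 θ` is effective, and `m K + 6 Θ` is pseudo-effective, hence nef on a `Θ`-minimal model.
-/

set_option autoImplicit false

namespace Crest.Agent.X262.G3Num

open Crest.Agent.X277 Crest.Agent.X277.Lef Crest.Agent.X277.BD Crest.Agent.X277.BD.Br
open Crest.Agent.X262.Surf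

variable {E : Type} [Field E] [Algebra ℂ E] [Algebra.EssFiniteType ℂ E]


theorem h0_eq_zero {a : BD ℂ E} (h : ¬ Eff a) : h0 a = 0 := by
  rw [eff_iff_finrank, not_lt, Nat.le_zero] at h
  rw [h0, h, Nat.cast_zero]

theorem sq_pos (b : B2 E) {θ : BD ℂ E} (h1 : Nef θ) (h2 : Big θ) : 0 < bnum [θ, θ] :=
  bnum_pos (by simpa using (Module.finrank_eq_card_basis b).symm) (by simp [h1, h2])

/-- non-vanishing: one of `K + θ`, `K + 2 θ`, `K + 3 θ` is effective -/
theorem exists_eff (hR : RRStmt) (hS : SerStmt) (hV : KVStmt) (B : PModel ℂ E) (b : B2 E)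
    {θ : BD ℂ E} (hθ : θ ∈ On B) (h1 : Nef θ) (h2 : Big θ) :
    ∃ j : ℕ, j ≤ 3 ∧ Eff (kP B b + j • θ) := by
  obtain ⟨c, hc⟩ := hR E B b
  have hp := sq_pos b h1 h2
  by_contra hn
  push Not at hn
  have key : ∀ j : ℕ, 0 < j → j ≤ 3 →
      2 * c + j * bnum [kP B b, θ] + j * (j * bnum [θ, θ]) = 0 := fun j hj hj3 => by
    have h3 := hV E B b c hc (j • θ) (nsmul_mem hθ j) (h1.nsmul j) (h2.nsmul hj)
    have h4 := hS E B b c hc (kP B b + j • θ) (add_mem (kP_mem b) (nsmul_mem hθ j))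
    have h5 : ¬ Eff (kP B b - (kP B b + j • θ)) := fun h => by
      have h6 := h.bnum_nonneg (l := [θ]) (by simpa using h1)
      rw [sub_add_cancel_left, bnum_neg, bnum_nsmul] at h6
      have : (0 : ℤ) < j * bnum [θ, θ] := mul_pos (by exact_mod_cast hj) hp
      omega
    rw [h0_eq_zero (hn j hj3)] at h3 h4
    rw [h0_eq_zero h5] at h4
    have h7 : rr B b c (kP B b + j • θ) = 0 := by omega
    rw [rr, add_sub_cancel_left, bnum_add, bnum_nsmul2, bnum_nsmul, bnum_nsmul2] at h7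
    omega
  have k1 := key 1 (by omega) (by omega)
  have k2 := key 2 (by omega) (by omega)
  have k3 := key 3 (by omega) (by omega)
  push_cast at k1 k2 k3
  omega

theorem econStmt (hT : ThMinStmt) (hR : RRStmt) (hS : SerStmt) (hV : KVStmt) (hU : UnimStmt) :
    EconStmt := by
  intro E _ _ _ b Θ m hm hpg hN hB hd
  obtain ⟨B, hΘ, hB'⟩ := hT E b Θ m hN hB hd
  obtain ⟨θ, hθ, hz⟩ := hU E B b Θ m (hpg B) hΘ fun a _ => hd a
  have hz1 : Nef (Θ - m • θ) := Rho82.nef_of_numZ hz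
  have hz2 : Nef (-(Θ - m • θ)) := Rho82.nef_of_numZ hz.neg
  have he : m • θ = Θ + -(Θ - m • θ) := by abel
  have h1 : Nef θ := Nef.of_nsmul hm (he ▸ hN.add hz2)
  have h2 : Big θ := Big.of_nsmul hm (he ▸ hB.add_nef hz2)
  obtain ⟨j, hj, h3⟩ := exists_eff hR hS hV B b hθ h1 h2
  refine ⟨B, hΘ, hB' m 6 (by omega) ?_⟩
  obtain ⟨i, hi⟩ : ∃ i, i + j = 6 := ⟨6 - j, by omega⟩
  have h4 : m • kP B b + 6 • Θ = m • (kP B b + j • θ + i • θ) + 6 • (Θ - m • θ) := by
    rw [add_assoc, ← add_nsmul, add_comm j i, hi]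
    module
  rw [h4]
  exact ((h3.psef.add (h1.nsmul i).psef).nsmul m).add (hz1.nsmul 6).psef

end Crest.Agent.X262.G3Num
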